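import Crest.Agent.H0324.Toep

set_option autoImplicit false

namespace Crest.Agent.H0324

open Finset Matrix

variable {α β γ : Type*} [Fintype α] [DecidableEq α] [Fintype β] [DecidableEq β]
  [Fintype γ] [DecidableEq γ]

/-- Words with dirty workspace. -/
def WW (γ : Type*) [Fintype γ] [DecidableEq γ] (L : ℕ) (M : Matrix α α ℂ) : Prop :=
  Wd L (fromBlocks M 0 0 (1 : Matrix γ γ ℂ))

lemma WW.mul {L L' : ℕ} {M M' : Matrix α α ℂ} (h : WW γ L M) (h' : WW γ L' M') :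
    WW γ (L + L') (M * M') :=
  (Wd.mul h h').of_eq rfl (by simp [fromBlocks_multiply])

lemma Wd.ww {M : Matrix α α ℂ} (h : Wd 0 M) : WW γ 0 M := h.sum Wd.one

lemma ww_single {L : ℕ} {A A' : Matrix β β ℂ} (h1 : A * A' = 1) (h2 : A' * A = 1)
    (a1 : WW γ L (fromBlocks 1 0 A 1)) (a2 : WW γ L (fromBlocks 1 0 (-A) 1))
    (a3 : WW γ L (fromBlocks 1 A' 0 1)) (a4 : WW γ L (fromBlocks 1 (-A') 0 1)) (d : β → ℂ) :
    WW γ (6 * L) (fromBlocks (A' * diagonal d * A) 0 0 (1 : Matrix β β ℂ)) := by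
  have h := (((a2.mul a3).mul a2).mul ((Wd.one (α := β)).sum (Wd.diag d)).ww).mul
    ((a1.mul a4).mul a1)
  refine Wd.of_eq h (by ring) ?_
  congr 1
  simp [fromBlocks_multiply, h1, h2, Matrix.mul_assoc]

lemma wd_odd {m n L : ℕ} [NeZero m] [NeZero n] (hm : Odd m) (hmn : 2 * m ≤ n)
    {χ : AddChar (ZMod n) ℂ} (hχ : χ.IsPrimitive) (h : Wd L (Fa χ))
    {ψ : AddChar (ZMod m) ℂ} (hψ : ψ.IsPrimitive) :
    Wd (6 * (16 * L + 24)) (fromBlocks (Fa ψ) 0 0
      (1 : Matrix (ZMod m ⊕ ZMod n) (ZMod m ⊕ ZMod n) ℂ)) := by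
  obtain ⟨k, hk⟩ := hm
  obtain ⟨t, ht⟩ : ∃ t : ZMod m, 2 * t = 1 := ⟨(k + 1 : ℕ), by
    have : ((2 * k + 1 : ℕ) : ZMod m) = 0 := by rw [← hk]; simp
    push_cast at this ⊢
    linear_combination this⟩
  have hc : (Fintype.card (ZMod m) : ℂ) ≠ 0 := Nat.cast_ne_zero.2 Fintype.card_ne_zero
  have ea : ∀ c : ℂ, c • Fa ψ = diagonal (fun x => c * ψ (t * x ^ 2)) *
      (of fun x x' => ψ (-(t * (x - x') ^ 2))) * diagonal (fun x => ψ (t * x ^ 2)) := by
    intro c
    ext x y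
    simp only [Matrix.smul_apply, Fa, of_apply, mul_diagonal, diagonal_mul, smul_eq_mul, mul_assoc,
      ← AddChar.map_add_eq_mul]
    congr 2
    linear_combination (-(x * y)) * ht
  have eb : ∀ c : ℂ, c • Fb ψ = diagonal (fun x => c * ψ (-(t * x ^ 2))) *
      (of fun x x' => ψ (t * (x - x') ^ 2)) * diagonal (fun x => ψ (-(t * x ^ 2))) := by
    intro c
    ext x y
    simp only [Matrix.smul_apply, Fb, of_apply, mul_diagonal, diagonal_mul, smul_eq_mul, mul_assoc,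
      ← AddChar.map_add_eq_mul]
    congr 2
    linear_combination (x * y) * ht
  have lo : ∀ c : ℂ, WW (ZMod n) (16 * L + 24) (fromBlocks 1 0 (c • Fb ψ) 1) := by
    intro c
    refine (wd_toep hmn hχ h (f := Sum.inl) (g := Sum.inr) Sum.inl_injective Sum.inr_injective
      (fun _ _ => Sum.inl_ne_inr) (fun x => c * ψ (-(t * x ^ 2))) (fun x => ψ (-(t * x ^ 2)))
      (fun u => ψ (t * u ^ 2))).of_eq rfl ?_
    rw [← eb]
    congr 1
    generalize c • Fb ψ = Z
    ext (x | x) (y | y) <;> simp [Pm, mul_apply, one_apply]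
  have up : ∀ c : ℂ, WW (ZMod n) (16 * L + 24) (fromBlocks 1 (c • Fa ψ) 0 1) := by
    intro c
    refine (wd_toep hmn hχ h (f := Sum.inr) (g := Sum.inl) Sum.inr_injective Sum.inl_injective
      (fun _ _ => Sum.inr_ne_inl) (fun x => c * ψ (t * x ^ 2)) (fun x => ψ (t * x ^ 2))
      (fun u => ψ (-(t * u ^ 2)))).of_eq rfl ?_
    rw [← ea]
    congr 1
    generalize c • Fa ψ = Z
    ext (x | x) (y | y) <;> simp [Pm, mul_apply, one_apply]
  have h1 := ww_single (γ := ZMod n) (A := Fb ψ) (A' := (Fintype.card (ZMod m) : ℂ)⁻¹ • Fa ψ)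
    (by rw [Matrix.mul_smul, Fb_mul_Fa hψ, smul_smul, inv_mul_cancel₀ hc, one_smul])
    (by rw [Matrix.smul_mul, Fa_mul_Fb hψ, smul_smul, inv_mul_cancel₀ hc, one_smul])
    (by simpa using lo 1) (by simpa using lo (-1)) (up _) (by rw [← neg_smul]; exact up _)
    (fun y => ∑ u, ψ (-(t * u ^ 2)) * ψ (-(u * y)))
  have h2 : (Fintype.card (ZMod m) : ℂ)⁻¹ • Fa ψ *
      diagonal (fun y => ∑ u, ψ (-(t * u ^ 2)) * ψ (-(u * y))) * Fb ψ =
      of fun x x' => ψ (-(t * (x - x') ^ 2)) := by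
    rw [← circ_eq hψ (fun u => ψ (-(t * u ^ 2))), Matrix.smul_mul, ← Matrix.mul_smul,
      ← diagonal_smul]
    rfl
  rw [h2] at h1
  have h3 := ((((Wd.diag fun x => 1 * ψ (t * x ^ 2)).sum (Wd.one (α := ZMod m))).ww.mul h1).mul
    ((Wd.diag fun x => ψ (t * x ^ 2)).sum (Wd.one (α := ZMod m))).ww)
  refine (Wd.submatrix h3 (Equiv.sumAssoc _ _ _).symm).of_eq (by ring) ?_
  simp only [fromBlocks_multiply, Matrix.mul_zero, Matrix.zero_mul, add_zero, zero_add,
    Matrix.mul_one]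
  rw [← ea, one_smul]
  ext (x | x | x) (y | y | y) <;> simp [one_apply]

/-- The Fourier matrix on `Fin n`. -/
def Fm (n : ℕ) (ζ : ℂ) : Matrix (Fin n) (Fin n) ℂ := of fun i j => ζ ^ (i.val * j.val)

lemma wd_CT {a b L L' : ℕ} {ζ : ℂ} (hζ : ζ ^ (a * b) = 1)
    (h1 : Wd L (blockDiagonal fun _ : Fin a => Fm b (ζ ^ a)))
    (h2 : Wd L' (blockDiagonal fun _ : Fin b => Fm a (ζ ^ b))) : Wd (L + L') (Fm (a * b) ζ) := by
  have h := ((h1.submatrix (Equiv.prodComm _ _)).mul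
    (Wd.diag fun k : Fin a × Fin b => ζ ^ (k.1.val * k.2.val))).mul h2
  refine Wd.of_submatrix ((Equiv.prodComm (Fin a) (Fin b)).trans
    (finProdFinEquiv.trans (finCongr (mul_comm b a)))) finProdFinEquiv (h.of_eq rfl ?_)
  ext ⟨i, i'⟩ ⟨j, j'⟩
  rw [mul_apply, Fintype.sum_eq_single (i, j')]
  · simp only [mul_diagonal, submatrix_apply, Equiv.prodComm_apply, Prod.swap_prod_mk,
      blockDiagonal_apply_eq, Fm, of_apply, Equiv.trans_apply, finCongr_apply, Fin.val_cast,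
      finProdFinEquiv_apply_val, ← pow_mul, ← pow_add]
    rw [show (i.val + a * i'.val) * (j'.val + b * j.val) =
      a * (i'.val * j'.val) + i.val * j'.val + b * (i.val * j.val) + a * b * (i'.val * j.val) by
        ring, pow_add _ _ (a * b * _), pow_mul _ (a * b), hζ, one_pow, mul_one]
  · rintro ⟨k, k'⟩ hk
    by_cases h3 : i = k
    · have : k' ≠ j' := fun h4 => hk (by rw [h3, h4])
      simp [blockDiagonal_apply, this]
    · simp [blockDiagonal_apply, h3]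

lemma wd_fft (e : ℕ) (ζ : ℂ) (hζ : IsPrimitiveRoot ζ (2 ^ e)) : Wd e (Fm (2 ^ e) ζ) := by
  induction e generalizing ζ with
  | zero =>
    refine Wd.one.of_eq rfl ?_
    ext i j
    have : Unique (Fin (2 ^ 0)) := (inferInstance : Unique (Fin 1))
    obtain rfl := Subsingleton.elim i j
    simp [Fm]
  | succ e ih =>
    have h1 : ζ ^ (2 ^ e) = -1 :=
      (hζ.pow (by positivity) (pow_succ 2 e)).eq_neg_one_of_two_right
    have h2 : Wd 1 (Fm 2 (-1)) := by
      refine Wd.of_submatrix (finSumFinEquiv (m := 1) (n := 1)) (finSumFinEquiv (m := 1) (n := 1))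
        (wd_B2_H.of_eq rfl ?_)
      ext (x | x) (y | y) <;> fin_cases x <;> fin_cases y <;> simp [B2, Fm, finSumFinEquiv]
    have h3 := wd_CT (a := 2 ^ e) (b := 2) (ζ := ζ) hζ.pow_eq_one (h1 ▸ h2.blockDiag _)
      ((ih _ (hζ.pow (by positivity) (pow_succ' 2 e))).blockDiag _)
    exact h3.of_eq (add_comm _ _) rfl

/-- The identification of `ZMod n` with `Fin n`. -/
def zf (n : ℕ) [NeZero n] : ZMod n ≃ Fin n where
  toFun x := ⟨x.val, ZMod.val_lt x⟩
  invFun i := (i.val : ZMod n)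
  left_inv x := by simp
  right_inv i := by ext; simp [ZMod.val_cast_of_lt i.2]

lemma Fa_zmodChar {n : ℕ} [NeZero n] {ζ : ℂ} (hζ : ζ ^ n = 1) :
    Fa (AddChar.zmodChar n hζ) = (Fm n ζ).submatrix (zf n) (zf n) := by
  ext x y
  simp only [Fa, Fm, zf, of_apply, submatrix_apply, Equiv.coe_fn_mk]
  rw [← AddChar.zmodChar_apply' hζ]
  simp

lemma wd_odd_sq {m : ℕ} (hm : Odd m) (h6 : 6 ≤ m) {ζ : ℂ} (hζ : IsPrimitiveRoot ζ (m * m)) :
    Wd (22 * (6 * (16 * (Nat.log 2 m + 2) + 24))) (Fm (m * m) ζ) := by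
  have : NeZero m := ⟨by omega⟩
  set e := Nat.log 2 m + 2 with he
  have h1 : 2 * m ≤ 2 ^ e := by
    have := Nat.lt_pow_succ_log_self (b := 2) (by norm_num) m
    rw [he, pow_succ]
    omega
  have h2 : 2 ^ e ≤ 4 * m := by
    have := Nat.pow_log_le_self 2 (x := m) (by omega)
    rw [he, pow_add]
    omega
  have hω := Complex.isPrimitiveRoot_exp (2 ^ e) (by positivity)
  have hη : IsPrimitiveRoot (ζ ^ m) m := hζ.pow (by positivity) rfl
  have h3 := wd_odd hm h1 (AddChar.zmodChar_primitive_of_primitive_root _ hω)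
    (by rw [Fa_zmodChar]; exact (wd_fft e _ hω).submatrix _)
    (AddChar.zmodChar_primitive_of_primitive_root _ hη)
  have h4 := Wd.chunk (γ := Fin m) (s := m / 6) (fun U hU => h3.part U (by
    simp only [ZMod.card, Fintype.card_sum, Fintype.card_fin]
    calc (m + (m + 2 ^ e)) * #U ≤ (6 * m) * (m / 6) := Nat.mul_le_mul (by omega) hU
      _ = m * (6 * (m / 6)) := by ring
      _ ≤ m * m := Nat.mul_le_mul_left _ (by omega))) 11 univ (by simp; omega)
  have h5 : Wd (11 * (6 * (16 * e + 24))) (blockDiagonal fun _ : Fin m => Fm m (ζ ^ m)) := by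
    refine Wd.of_submatrix ((zf m).prodCongr (Equiv.refl _)) ((zf m).prodCongr (Equiv.refl _))
      (h4.of_eq rfl ?_)
    rw [Fa_zmodChar]
    ext ⟨x, c⟩ ⟨y, c'⟩
    simp [blockDiagonal_apply]
  exact (wd_CT hζ.pow_eq_one h5 h5).of_eq (by ring) rfl

/-- The standard root of unity. -/
noncomputable def rt (n : ℕ) : ℂ := Complex.exp (2 * Real.pi * Complex.I / n)

lemma rt_prim {n : ℕ} (hn : n ≠ 0) : IsPrimitiveRoot (rt n) n := Complex.isPrimitiveRoot_exp n hn

theorem wd_good : ∃ C : ℕ, ∀ r K : ℕ, r ≤ K → ((∃ a, r = 2 ^ a) ∨ ∃ m, Odd m ∧ r = m * m) →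
    Wd (C * (Nat.log 2 K + 1)) (Fm r (rt r)) := by
  choose L hL using fun m : ℕ => Wd.exists (Fm (m * m) (rt (m * m)))
  refine ⟨∑ m ∈ range 6, L m + 7392, fun r K hK h => ?_⟩
  obtain ⟨a, rfl⟩ | ⟨m, hm, rfl⟩ := h
  · refine (wd_fft a _ (rt_prim (by positivity))).le ?_
    have : a ≤ Nat.log 2 K := Nat.le_log_of_pow_le (by norm_num) hK
    nlinarith [Nat.zero_le (∑ m ∈ range 6, L m)]
  · by_cases h6 : 6 ≤ m
    · refine (wd_odd_sq hm h6 (rt_prim (by positivity))).le ?_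
      have : Nat.log 2 m ≤ Nat.log 2 K := Nat.log_mono_right (le_trans (Nat.le_mul_self m) hK)
      nlinarith [Nat.zero_le (∑ m ∈ range 6, L m)]
    · refine (hL m).le ?_
      have : L m ≤ ∑ m ∈ range 6, L m :=
        single_le_sum (f := L) (fun _ _ => Nat.zero_le _) (mem_range.2 (by omega))
      nlinarith [Nat.zero_le (Nat.log 2 K)]

end Crest.Agent.H0324
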