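import Crest.Agent.H0324.Tensor
import Crest.Agent.H0324.Odd

set_option autoImplicit false

namespace Crest.Agent.H0324

open Finset Matrix Crest.FourierCircuit

lemma dft_of_cost {R : Type*} [CommRing R] [Fintype R] [DecidableEq R] {ψ : AddChar R ℂ}
    (hψ : ψ.IsPrimitive) {n : ℕ} {c : ℝ} (hc : Cost ((Fin n → ℂ) → ℂ) (Fa ψ) c)
    (hR : ∀ t : ℤ, (t : R) = 0 → |t| < 2 * n → t = 0) :
    ∃ P : LinCircuit n, P.Computes (dftMatrix n) ∧
      (P.size : ℝ) ≤ 3 * (2 * c + 3 * Fintype.card R) := by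
  classical
  refine gen_circuit _ ?_
  set η : ℂ := Complex.exp (Real.pi * Complex.I / n) with hη
  have hη0 : η ≠ 0 := Complex.exp_ne_zero _
  have hη2 : Complex.exp (2 * Real.pi * Complex.I / n) = η ^ 2 := by
    rw [hη, ← Complex.exp_nat_mul]
    congr 1
    push_cast
    ring
  obtain ⟨κ, hκ⟩ : ∃ κ : R → ℂ, ∀ t : ℤ, |t| < n → κ t = η ^ (-t ^ 2) := by
    refine ⟨fun u => if h : ∃ t : ℤ, |t| < n ∧ (t : R) = u then η ^ (-h.choose ^ 2) else 0,
      fun t ht => ?_⟩
    have h : ∃ s : ℤ, |s| < n ∧ (s : R) = t := ⟨t, ht, rfl⟩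
    have h1 := h.choose_spec
    have h2 : h.choose = t := by
      refine sub_eq_zero.1 (hR _ (by push_cast; rw [h1.2, sub_self]) ?_)
      have := abs_sub h.choose t
      omega
    simp only [dif_pos h, h2]
  let x : Fin n → (Fin n → ℂ) → ℂ := fun j x => x j
  let a : R → (Fin n → ℂ) → ℂ := fun u => ∑ k : Fin n, (if u = ((k.val : ℤ) : R) then (1 : ℂ)
    else 0) • x k
  have ha : Set.range a ⊆ insert 0 (Set.range x) := by
    rintro _ ⟨u, rfl⟩
    by_cases h : ∃ k : Fin n, u = ((k.val : ℤ) : R)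
    · obtain ⟨k, rfl⟩ := h
      refine Or.inr ⟨k, ?_⟩
      simp only [a]
      rw [Fintype.sum_eq_single k, if_pos rfl, one_smul]
      intro k' hk'
      rw [if_neg, zero_smul]
      intro h
      have := hR (k.val - k'.val) (by rw [Int.cast_sub, h, sub_self]) (by
        have := k.2
        have := k'.2
        rw [abs_lt]
        omega)
      exact hk' (Fin.ext (by omega))
    · left
      exact sum_eq_zero fun k _ => by rw [if_neg fun h' => h ⟨k, h'⟩, zero_smul]
  have h1 := ((Cost.mono (fun u => (κ u)⁻¹) id).mul ((hc.mul (Cost.mono (fun y =>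
    (Fintype.card R : ℂ)⁻¹ * ∑ u, κ u * ψ (-(u * y))) (fun y => -y))).mul hc)).mul
    (Cost.mono (fun u => (κ u)⁻¹) id) a
  have h2 : ∀ l : R → ℂ, Fa ψ * mono l (fun y => -y) * Fa ψ = Fa ψ * diagonal l * Fb ψ := by
    intro l
    rw [Matrix.mul_assoc, Matrix.mul_assoc, mono_mul]
    congr 1
    ext x y
    simp [Fa, Fb]
  rw [h2, circ_eq hψ, mono_id] at h1
  refine h1.mono ha (le_of_eq (by ring)) ?_
  rintro _ ⟨j, rfl⟩
  refine ⟨((j.val : ℤ) : R), ?_⟩
  simp only [app, a, smul_sum, smul_smul]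
  rw [sum_comm]
  refine sum_congr rfl fun k _ => ?_
  rw [← sum_smul]
  congr 1
  have h3 := j.2
  have h4 := k.2
  simp only [mul_ite, mul_one, mul_zero, sum_ite_eq', mem_univ, if_true, mul_diagonal,
    diagonal_mul, of_apply, dftMatrix]
  rw [← Int.cast_sub, hκ _ (by rw [abs_lt]; omega), hκ _ (by rw [abs_lt]; omega),
    hκ _ (by rw [abs_lt]; omega), hη2, ← _root_.zpow_neg, ← _root_.zpow_neg, ← zpow_add₀ hη0, ← zpow_add₀ hη0,
    ← pow_mul, ← zpow_natCast]
  congr 1
  push_cast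
  ring

/-- The product of additive characters. -/
def piChar {J : Type} [Fintype J] {R : J → Type} [∀ j, CommRing (R j)]
    (ψ : ∀ j, AddChar (R j) ℂ) : AddChar (∀ j, R j) ℂ where
  toFun x := ∏ j, ψ j (x j)
  map_zero_eq_one' := by simp
  map_add_eq_mul' x y := by simp [AddChar.map_add_eq_mul, prod_mul_distrib]

lemma piChar_prim {J : Type} [Fintype J] [DecidableEq J] {R : J → Type} [∀ j, CommRing (R j)]
    {ψ : ∀ j, AddChar (R j) ℂ} (h : ∀ j, (ψ j).IsPrimitive) : (piChar ψ).IsPrimitive := by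
  intro a ha h1
  obtain ⟨j, hj⟩ := Function.ne_iff.1 ha
  refine h j hj (AddChar.ext _ _ fun x => ?_)
  have h2 := DFunLike.congr_fun h1 (Pi.single j x)
  simp only [AddChar.mulShift_apply, AddChar.one_apply] at h2 ⊢
  rw [← h2]
  change _ = ∏ i, ψ i (a i * (Pi.single j x : ∀ j, R j) i)
  rw [Fintype.prod_eq_single j, Pi.single_eq_same]
  intro i hi
  simp [Pi.single_eq_of_ne hi]

lemma dft_of_moduli {n d L : ℕ} (r : ℕ → ℕ) (h0 : ∀ i, r i ≠ 0)
    (hL : ∀ i, Wd L (Fm (r i) (rt (r i)))) (hco : Pairwise fun i j => (r i).Coprime (r j))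
    (h1 : 2 * n ≤ ∏ i ∈ range d, r i) (h2 : ∏ i ∈ range d, r i ≤ 4 * n) :
    ∃ P : LinCircuit n, P.Computes (dftMatrix n) ∧
      (P.size : ℝ) ≤ 3 * (2 * ((L + 1) * (4 * n * (K1 * ((d : ℝ) + 1) ^ savingExponent + 1))) +
        3 * (4 * n)) := by
  have : ∀ i, NeZero (r i) := fun i => ⟨h0 i⟩
  let ψ : ∀ j : Fin d, AddChar (ZMod (r j)) ℂ := fun j =>
    AddChar.zmodChar _ (rt_prim (h0 j)).pow_eq_one
  have hψ : ∀ j, (ψ j).IsPrimitive := fun j =>
    AddChar.zmodChar_primitive_of_primitive_root _ (rt_prim (h0 j))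
  have h3 := cost_Ten (E := (Fin n → ℂ) → ℂ) L (fun j => Fa (ψ j)) fun j => by
    rw [Fa_zmodChar]
    exact (hL j).submatrix _
  have h4 : Fintype.card (∀ j : Fin d, ZMod (r j)) = ∏ i ∈ range d, r i := by
    simp [Fin.prod_univ_eq_prod_range]
  obtain ⟨P, hP, hP'⟩ := dft_of_cost (piChar_prim hψ) h3 (fun t ht ht' => by
    have h5 : (∏ j : Fin d, (r j : ℤ)) ∣ t := by
      refine Finset.prod_dvd_of_coprime (fun i _ j _ hij => ?_) fun j _ => ?_
      · exact Nat.isCoprime_iff_coprime.2 (hco (Fin.val_ne_of_ne hij))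
      · exact (ZMod.intCast_zmod_eq_zero_iff_dvd _ _).1 (congrFun ht j)
    refine Int.eq_zero_of_abs_lt_dvd h5 (ht'.trans_le ?_)
    rw [Fin.prod_univ_eq_prod_range (fun j => (r j : ℤ))]
    exact_mod_cast h1)
  refine ⟨P, hP, hP'.trans ?_⟩
  have h5 : ((∏ i ∈ range d, r i : ℕ) : ℝ) ≤ 4 * n := by exact_mod_cast h2
  have := K1_nonneg
  rw [h4, Fintype.card_fin]
  gcongr

lemma exists_moduli {n : ℕ} (hn : n ≠ 0) (K : ℕ) (hK : K = 3 * Nat.log 2 n + 9) :
    ∃ r : ℕ → ℕ, (∀ i, r i ≠ 0) ∧ (∀ i, r i ≤ 2 * K ^ 2) ∧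
      (∀ i, (∃ a, r i = 2 ^ a) ∨ ∃ m, Odd m ∧ r i = m * m) ∧
      (Pairwise fun i j => (r i).Coprime (r j)) ∧ 2 * n ≤ ∏ i ∈ range (K + 1), r i ∧
      ∏ i ∈ range (K + 1), r i ≤ 4 * n := by
  let g : ℕ → ℕ := fun i => if i.Prime ∧ i ≠ 2 then i ^ Nat.log i K else 1
  have g1 : ∀ i, g i ≤ K := fun i => by
    simp only [g]
    split_ifs
    · exact Nat.pow_log_le_self _ (by omega)
    · omega
  have g2 : ∀ i, Odd (g i) := fun i => by
    simp only [g]
    split_ifs with h
    · exact (h.1.odd_of_ne_two h.2).pow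
    · exact odd_one
  have g3 : g 2 = 1 := by simp [g]
  have hQ : 2 * n ≤ ∏ i ∈ range (K + 1), g i := by
    have h1 := Chebyshev.two_pow_le_mul_lcmUpto K
    have h2 : Nat.lcmUpto K ≤ K * ∏ i ∈ range (K + 1), g i := by
      rw [Nat.lcmUpto_eq_prod_pow_log, Nat.primesLE_eq_filter_range, prod_filter,
        ← mul_prod_erase _ _ (mem_range.2 (show 2 < K + 1 by omega)),
        ← mul_prod_erase _ g (mem_range.2 (show 2 < K + 1 by omega)), g3, one_mul,
        if_pos Nat.prime_two]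
      refine Nat.mul_le_mul (Nat.pow_log_le_self _ (by omega)) (le_of_eq ?_)
      exact prod_congr rfl fun i hi => by simp [g, ne_of_mem_erase hi]
    have h3 := Nat.lt_pow_succ_log_self (b := 2) (by norm_num) n
    have h4 : Nat.log 2 n < 2 ^ Nat.log 2 n := Nat.lt_two_pow_self
    have h5 : 2 ^ K = 512 * (2 ^ Nat.log 2 n) ^ 3 := by rw [hK]; ring
    rw [pow_succ] at h3
    generalize 2 ^ Nat.log 2 n = X at *
    generalize ∏ i ∈ range (K + 1), g i = Q at *
    have h6 : K + 1 ≤ 10 * X := by omega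
    have h7 : 512 * X ^ 3 ≤ (10 * X) * ((10 * X) * Q) :=
      (h5 ▸ h1).trans (Nat.mul_le_mul h6 (h2.trans (Nat.mul_le_mul_right _ (by omega))))
    have h8 : X ^ 2 * (512 * X) ≤ X ^ 2 * (100 * Q) := by nlinarith
    have h9 := Nat.le_of_mul_le_mul_left h8 (by have : 0 < X := by omega
                                                positivity)
    omega
  have hex : ∃ t, 2 * n ≤ ∏ i ∈ range (t + 1), g i * g i :=
    ⟨K, hQ.trans (prod_le_prod' fun i _ => Nat.le_mul_self _)⟩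
  set t := Nat.find hex with ht
  have t1 : t ≤ K := Nat.find_min' hex (hQ.trans (prod_le_prod' fun i _ => Nat.le_mul_self _))
  set Pt := ∏ i ∈ range t, g i * g i with hPt
  have t2 : 2 * n ≤ Pt * K ^ 2 := by
    have := Nat.find_spec hex
    rw [prod_range_succ, ← ht, ← hPt] at this
    exact this.trans (Nat.mul_le_mul_left _ (by rw [sq]; exact Nat.mul_le_mul (g1 _) (g1 _)))
  have t3 : Pt < 2 * n := by
    rcases Nat.eq_zero_or_pos t with h | h
    · rw [hPt, h, prod_range_zero]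
      omega
    · have := Nat.find_min hex (m := t - 1) (by omega)
      rw [Nat.sub_add_cancel h] at this
      omega
  have t4 : 0 < Pt := prod_pos fun i _ => Nat.mul_pos (g2 i).pos (g2 i).pos
  have hex' : ∃ a, 2 * n ≤ 2 ^ (a + 1) * Pt := ⟨2 * n, by
    have : 2 * n < 2 ^ (2 * n) := Nat.lt_two_pow_self
    rw [pow_succ]
    nlinarith⟩
  set a := Nat.find hex' with ha
  have a1 : 2 * n ≤ 2 ^ (a + 1) * Pt := Nat.find_spec hex'
  have a2 : 2 ^ a * Pt < 2 * n := by
    rcases Nat.eq_zero_or_pos a with h | h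
    · rw [h]
      omega
    · have := Nat.find_min hex' (m := a - 1) (by omega)
      rw [Nat.sub_add_cancel h] at this
      omega
  have a3 : 2 ^ a < K ^ 2 := by
    refine lt_of_mul_lt_mul_right (a := Pt) ?_ (Nat.zero_le _)
    nlinarith
  let r : ℕ → ℕ := fun i => (if i = 2 then 2 ^ (a + 1) else 1) * if i < t then g i * g i else 1
  have r1 : ∏ i ∈ range (K + 1), r i = 2 ^ (a + 1) * Pt := by
    rw [prod_mul_distrib, prod_ite_eq', if_pos (mem_range.2 (by omega)), ← prod_filter, hPt]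
    congr 2
    ext i
    simp only [mem_filter, mem_range]
    omega
  have r2 : ∀ i, r i = 1 ∨ (i.Prime ∧ ∃ e, r i = i ^ e) := by
    intro i
    by_cases h : i = 2
    · subst h
      exact Or.inr ⟨Nat.prime_two, a + 1, by simp [r, g3]⟩
    · by_cases h' : i < t ∧ i.Prime
      · exact Or.inr ⟨h'.2, Nat.log i K + Nat.log i K, by simp [r, g, h, h', pow_add]⟩
      · left
        by_cases h'' : i < t
        · have : ¬ i.Prime := fun h3 => h' ⟨h'', h3⟩
          simp [r, g, h, this]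
        · simp [r, h, h'']
  refine ⟨r, fun i => ?_, fun i => ?_, fun i => ?_, fun i j hij => ?_, r1 ▸ a1, ?_⟩
  · obtain h | ⟨h, e, he⟩ := r2 i
    · omega
    · rw [he]
      exact pow_ne_zero _ h.ne_zero
  · by_cases h : i = 2
    · subst h
      simp only [r, g3, if_true, mul_one, ite_self, pow_succ 2 a]
      omega
    · have := Nat.mul_le_mul (g1 i) (g1 i)
      have h3 : 1 ≤ K * K := Nat.mul_pos (by omega) (by omega)
      simp only [r, if_neg h, one_mul, sq]
      split_ifs <;> omega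
  · by_cases h : i = 2
    · subst h
      exact Or.inl ⟨a + 1, by simp [r, g3]⟩
    · by_cases h' : i < t
      · exact Or.inr ⟨g i, g2 i, by simp [r, h, h']⟩
      · exact Or.inr ⟨1, odd_one, by simp [r, h, h']⟩
  · obtain h | ⟨h, e, he⟩ := r2 i
    · simp [h]
    · obtain h' | ⟨h', e', he'⟩ := r2 j
      · simp [h']
      · rw [he, he']
        exact Nat.Coprime.pow _ _ ((Nat.coprime_primes h h').2 hij)
  · rw [r1, pow_succ]
    nlinarith

lemma natlog_le {n : ℕ} (hn : n ≠ 0) : (Nat.log 2 n : ℝ) ≤ 2 * Real.log n := by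
  have h1 : ((2 ^ Nat.log 2 n : ℕ) : ℝ) ≤ n := by exact_mod_cast Nat.pow_log_le_self 2 hn
  have h2 := Real.log_le_log (by positivity) h1
  push_cast at h2
  rw [Real.log_pow] at h2
  have := Real.log_two_gt_d9
  nlinarith [(Nat.cast_nonneg (Nat.log 2 n) : (0 : ℝ) ≤ _)]

theorem dft_main : ∃ C : ℝ, ∃ N₀ : ℕ, ∀ n ≥ N₀, ∃ P : LinCircuit n, P.Computes (dftMatrix n) ∧
    (P.size : ℝ) ≤ C * n * Real.log n ^ savingExponent *
      Real.log (Real.log n) ^ (4 - savingExponent) := by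
  obtain ⟨C, hC⟩ := wd_good
  refine ⟨3 * (2 * ((71 * C + 1) * (4 * (K1 * 17 + 1))) + 12), 16, fun n hn => ?_⟩
  have hn0 : n ≠ 0 := by omega
  obtain ⟨r, h0, h1, h2, h3, h4, h5⟩ := exists_moduli hn0 _ rfl
  set K := 3 * Nat.log 2 n + 9 with hK
  obtain ⟨P, hP, hP'⟩ := dft_of_moduli r h0 (fun i => hC _ _ (h1 i) (h2 i)) h3 h4 h5
  refine ⟨P, hP, hP'.trans ?_⟩
  have hθ := theta_nonneg
  have hθ' := theta_le_one
  have hK1 := K1_nonneg
  have l1 : Real.exp 1 ≤ Real.log n := by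
    have h6 : (2 : ℝ) ^ 4 ≤ n := by exact_mod_cast hn
    have h7 := Real.log_le_log (by positivity) h6
    rw [Real.log_pow] at h7
    have := Real.log_two_gt_d9
    have := Real.exp_one_lt_d9
    push_cast at h7
    linarith
  have l2 : 1 ≤ Real.log n := le_trans (by have := Real.add_one_le_exp 1; linarith) l1
  have l3 : 1 ≤ Real.log (Real.log n) := (Real.le_log_iff_exp_le (by linarith)).2 l1
  have l4 : (K : ℝ) + 2 ≤ 17 * Real.log n := by
    have := natlog_le hn0
    rw [hK]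
    push_cast
    linarith
  have l5 : (((K + 1 : ℕ) : ℝ) + 1) ^ savingExponent ≤ 17 * Real.log n ^ savingExponent := by
    calc _ ≤ (17 * Real.log n) ^ savingExponent :=
          Real.rpow_le_rpow (by positivity) (by push_cast; linarith) hθ
      _ = 17 ^ savingExponent * Real.log n ^ savingExponent :=
          Real.mul_rpow (by norm_num) (by linarith)
      _ ≤ _ := by
          gcongr
          exact Real.rpow_le_self_of_one_le (by norm_num) hθ'
  have l6 : 1 ≤ Real.log n ^ savingExponent := Real.one_le_rpow l2 hθ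
  have l7 : Real.log (Real.log n) ≤ Real.log (Real.log n) ^ (4 - savingExponent) :=
    Real.self_le_rpow_of_one_le l3 (by linarith)
  have l8 : (Nat.log 2 (2 * K ^ 2) : ℝ) ≤ 70 * Real.log (Real.log n) := by
    have hK0 : (0 : ℝ) < K := by exact_mod_cast (show 0 < K by omega)
    have h6 := natlog_le (n := 2 * K ^ 2) (by positivity)
    push_cast at h6
    rw [Real.log_mul (by norm_num) (by positivity), Real.log_pow] at h6
    have h7 := Real.log_le_log hK0 (show (K : ℝ) ≤ 17 * Real.log n by linarith)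
    rw [Real.log_mul (by norm_num) (by linarith)] at h7
    have h8 := Real.log_le_sub_one_of_pos (show (0 : ℝ) < 17 by norm_num)
    have h9 := Real.log_le_sub_one_of_pos (show (0 : ℝ) < 2 by norm_num)
    push_cast at h6
    linarith
  have hZ : 0 ≤ (((K + 1 : ℕ) : ℝ) + 1) ^ savingExponent := by positivity
  generalize Real.log (Real.log n) ^ (4 - savingExponent) = Y at *
  generalize Real.log n ^ savingExponent = X at *
  generalize (((K + 1 : ℕ) : ℝ) + 1) ^ savingExponent = Z at *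
  have l9 : ((C * (Nat.log 2 (2 * K ^ 2) + 1) : ℕ) : ℝ) + 1 ≤ (71 * C + 1) * Y := by
    push_cast
    have : (C : ℝ) * (Nat.log 2 (2 * K ^ 2) + 1) ≤ C * (71 * Y) := by
      gcongr
      linarith
    linarith
  have l10 : K1 * Z + 1 ≤ (K1 * 17 + 1) * X := by nlinarith
  have l11 : 1 ≤ X * Y := one_le_mul_of_one_le_of_one_le l6 (l3.trans l7)
  have hY : 0 ≤ Y := by linarith
  calc _ ≤ 3 * (2 * (((71 * C + 1) * Y) * (4 * n * ((K1 * 17 + 1) * X))) +
        3 * (4 * n) * (X * Y)) := by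
        have h6 : (3 * (4 * n) : ℝ) ≤ 3 * (4 * n) * (X * Y) :=
          le_mul_of_one_le_right (by positivity) l11
        gcongr 3 * (2 * (?_ * (4 * n * ?_)) + ?_)
    _ = _ := by ring

end Crest.Agent.H0324
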