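import Crest.Agent.H0324.Gen

set_option autoImplicit false

namespace Crest.Agent.H0324

open Finset Matrix

/-- The sign character of `ZMod 2`. -/
noncomputable def sgn (c : ZMod 2) : ℂ := (-1) ^ c.val

lemma zmod2_cases (c : ZMod 2) : c = 0 ∨ c = 1 := by revert c; decide

@[simp] lemma sgn_zero : sgn 0 = 1 := by simp [sgn]

@[simp] lemma sgn_one : sgn 1 = -1 := by simp [sgn, ZMod.val_one]

lemma sgn_add (a b : ZMod 2) : sgn (a + b) = sgn a * sgn b := by
  have : (1 : ZMod 2) + 1 = 0 := rfl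
  rcases zmod2_cases a with rfl | rfl <;> rcases zmod2_cases b with rfl | rfl <;> simp [this]

lemma sgn_sum {ι : Type*} (s : Finset ι) (f : ι → ZMod 2) :
    sgn (∑ i ∈ s, f i) = ∏ i ∈ s, sgn (f i) := by
  classical
  induction s using Finset.induction_on with
  | empty => simp
  | insert a s ha ih => rw [sum_insert ha, prod_insert ha, sgn_add, ih]

lemma sum_zmod2 {M : Type*} [AddCommMonoid M] (f : ZMod 2 → M) : ∑ c, f c = f 0 + f 1 :=
  Fin.sum_univ_two f

/-- The entries of the square root of the swap. -/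
noncomputable def gam (c : ZMod 2) : ℂ :=
  if c = 0 then (1 + Complex.I) / 2 else (1 - Complex.I) / 2

lemma I_zpow_sq (t : ℤ) : Complex.I ^ (t * t) = ∑ c, gam c * sgn (c * (t : ZMod 2)) := by
  have h4 : Complex.I ^ (4 : ℤ) = 1 := by exact_mod_cast Complex.I_pow_four
  have h2 : (2 : ZMod 2) = 0 := rfl
  rw [sum_zmod2]
  obtain ⟨k, rfl | rfl⟩ := Int.even_or_odd' t
  · rw [show 2 * k * (2 * k) = 4 * (k * k) by ring, _root_.zpow_mul, h4]
    simp [gam, h2]
    ring
  · rw [show (2 * k + 1) * (2 * k + 1) = 4 * (k * k + k) + 1 by ring,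
      zpow_add₀ Complex.I_ne_zero, _root_.zpow_mul, h4]
    simp [gam, h2]
    ring

lemma I_zpow_sum {ι : Type*} (s : Finset ι) (f : ι → ℤ) :
    Complex.I ^ (∑ i ∈ s, f i) = ∏ i ∈ s, Complex.I ^ f i := by
  classical
  induction s using Finset.induction_on with
  | empty => simp
  | insert a s ha ih => rw [sum_insert ha, prod_insert ha, zpow_add₀ Complex.I_ne_zero, ih]

lemma I_zpow_two (k t : ℤ) : Complex.I ^ (2 * k * (t * t)) = sgn ((k : ZMod 2) * (t : ZMod 2)) := by
  have hI : Complex.I ^ (2 : ℤ) = -1 := by exact_mod_cast Complex.I_sq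
  have h2 : (2 : ZMod 2) = 0 := rfl
  rw [mul_assoc, _root_.zpow_mul, hI]
  obtain ⟨a, rfl | rfl⟩ := Int.even_or_odd' k
  · rw [Even.neg_one_zpow ⟨a * (t * t), by ring⟩]
    simp [h2]
  · obtain ⟨b, rfl | rfl⟩ := Int.even_or_odd' t
    · rw [Even.neg_one_zpow ⟨(2 * a + 1) * (2 * b * b), by ring⟩]
      simp [h2]
    · rw [Odd.neg_one_zpow ⟨a * (2 * b + 1) * (2 * b + 1) + 2 * (b * b + b), by ring⟩]
      simp [h2]

section four
variable {P : Type*} [Fintype P] [DecidableEq P] {E : Type*} [AddCommGroup E] [Module ℂ E]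

/-- The standard bicharacter. -/
noncomputable def bc (x y : P → ZMod 2) : ℂ := ∏ p, sgn (x p * y p)

omit [DecidableEq P] in
lemma bc_add (x x' y : P → ZMod 2) : bc (x + x') y = bc x y * bc x' y := by
  simp [bc, add_mul, sgn_add, prod_mul_distrib]

omit [DecidableEq P] in
lemma bc_comm (x y : P → ZMod 2) : bc x y = bc y x := by simp [bc, mul_comm]

lemma bc_orth (x : P → ZMod 2) :
    ∑ y, bc x y = if x = 0 then (2 : ℂ) ^ Fintype.card P else 0 := by
  simp only [bc]
  rw [← Fintype.prod_sum (fun p c => sgn (x p * c))]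
  split_ifs with h
  · subst h
    simp
  · obtain ⟨p, hp⟩ := Function.ne_iff.1 h
    refine prod_eq_zero (mem_univ p) ?_
    rw [sum_zmod2, (zmod2_cases (x p)).resolve_left hp]
    simp

/-- The Walsh-Hadamard transform of an array. -/
noncomputable def Hd : ((P → ZMod 2) → E) →ₗ[ℂ] ((P → ZMod 2) → E) where
  toFun a := fun x => ∑ y, bc x y • a y
  map_add' a b := by ext x; simp [sum_add_distrib]
  map_smul' c a := by ext x; simp [smul_sum, smul_comm c]

lemma Hd_apply (a : (P → ZMod 2) → E) (x : P → ZMod 2) : Hd a x = ∑ y, bc x y • a y := rfl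

lemma Hd_Hd (a : (P → ZMod 2) → E) : Hd (Hd a) = ((2 : ℂ) ^ Fintype.card P) • a := by
  ext x
  simp only [Hd_apply, smul_sum, smul_smul, Pi.smul_apply]
  rw [sum_comm]
  have : ∀ z, ∑ y, (bc x y * bc y z) • a z = if z = x then ((2 : ℂ) ^ Fintype.card P) • a x
      else 0 := by
    intro z
    rw [← sum_smul]
    simp only [bc_comm _ z, ← bc_add, bc_orth]
    have : x + z = 0 ↔ z = x := by
      rw [add_eq_zero_iff_neg_eq, eq_comm]
      have : -x = x := by ext p; simp [ZMod.neg_eq_self_mod_two]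
      rw [this]
    simp only [this]
    split_ifs with h
    · rw [h]
    · simp
  simp [this]

/-- Pointwise multiplication by a function. -/
noncomputable def Mu (φ : (P → ZMod 2) → ℂ) : ((P → ZMod 2) → E) →ₗ[ℂ] ((P → ZMod 2) → E) where
  toFun a := fun x => φ x • a x
  map_add' a b := by ext x; simp
  map_smul' c a := by ext x; simp [smul_comm c]

/-- The Fourier multiplier operator. -/
noncomputable def Tm (φ : (P → ZMod 2) → ℂ) : ((P → ZMod 2) → E) →ₗ[ℂ] ((P → ZMod 2) → E) :=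
  ((2 : ℂ) ^ Fintype.card P)⁻¹ • (Hd ∘ₗ Mu φ ∘ₗ Hd)

lemma Tm_mul (φ ψ : (P → ZMod 2) → ℂ) (a : (P → ZMod 2) → E) :
    Tm (φ * ψ) a = Tm φ (Tm ψ a) := by
  have h : ((2 : ℂ) ^ Fintype.card P) ≠ 0 := pow_ne_zero _ two_ne_zero
  simp only [Tm, LinearMap.smul_apply, LinearMap.comp_apply, map_smul, Hd_Hd, smul_smul,
    inv_mul_cancel₀ h, one_smul]
  congr 2
  ext x
  simp [Mu, smul_smul]

lemma Tm_sum {ι : Type*} [Fintype ι] (c : ι → ℂ) (t : ι → P → ZMod 2) (a : (P → ZMod 2) → E)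
    (x : P → ZMod 2) : Tm (fun χ => ∑ w, c w * bc (t w) χ) a x = ∑ w, c w • a (x + t w) := by
  have h : ((2 : ℂ) ^ Fintype.card P) ≠ 0 := pow_ne_zero _ two_ne_zero
  have h1 : ∀ w, a (x + t w) = ((2 : ℂ) ^ Fintype.card P)⁻¹ • Hd (Hd a) (x + t w) := by
    intro w
    rw [Hd_Hd, Pi.smul_apply, smul_smul, inv_mul_cancel₀ h, one_smul]
  simp only [h1, Tm, LinearMap.smul_apply, LinearMap.comp_apply, Pi.smul_apply]
  generalize Hd a = b
  simp only [Hd_apply, Mu, LinearMap.coe_mk, AddHom.coe_mk, smul_sum, sum_smul, smul_smul, bc_add]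
  rw [sum_comm]
  exact sum_congr rfl fun _ _ => sum_congr rfl fun _ _ => by congr 1; ring

lemma Tm_bc (t : P → ZMod 2) (a : (P → ZMod 2) → E) (x : P → ZMod 2) :
    Tm (bc t) a x = a (x + t) := by
  simpa using Tm_sum (fun _ : Unit => (1 : ℂ)) (fun _ => t) a x

lemma Tm_one (a : (P → ZMod 2) → E) : Tm 1 a = a := by
  ext x
  have : (1 : (P → ZMod 2) → ℂ) = bc 0 := by ext y; simp [bc]
  rw [this, Tm_bc, add_zero]

/-- The tensor power of the square root of the swap, acting on an array. -/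
noncomputable def Fop (b : (P → ZMod 2) → E) (x : P → ZMod 2) : E :=
  ∑ w : P → ZMod 2, (∏ p, gam (w p)) • b (x + w)

end four

section frame
variable {ι κ : Type*} [Fintype ι] [Fintype κ]

/-- The phase function of an integer matrix. -/
noncomputable def phi (κ : Type*) [Fintype κ] (B : Matrix ι ι ℤ) (χ : ι × κ → ZMod 2) : ℂ :=
  ∏ j, Complex.I ^ ((fun i => ((χ (i, j)).val : ℤ)) ⬝ᵥ B *ᵥ fun i => ((χ (i, j)).val : ℤ))

lemma phi_add (B B' : Matrix ι ι ℤ) : phi κ (B + B') = phi κ B * phi κ B' := by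
  ext χ
  simp [phi, add_mulVec, zpow_add₀ Complex.I_ne_zero, prod_mul_distrib]

lemma phi_zero : phi κ (0 : Matrix ι ι ℤ) = 1 := by
  ext χ
  simp [phi]

lemma quad_rank (z x : ι → ℤ) : x ⬝ᵥ vecMulVec z z *ᵥ x = (z ⬝ᵥ x) * (z ⬝ᵥ x) := by
  simp only [dotProduct, mulVec, vecMulVec_apply]
  rw [sum_mul_sum]
  simp only [mul_sum]
  exact sum_congr rfl fun _ _ => sum_congr rfl fun _ _ => by ring

lemma cast_dot (z : ι → ℤ) (y : ι → ZMod 2) :
    ((z ⬝ᵥ fun i => ((y i).val : ℤ) : ℤ) : ZMod 2) = ∑ i, (z i : ZMod 2) * y i := by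
  simp [dotProduct]

lemma phi_rank [DecidableEq κ] (z : ι → ℤ) : phi κ (vecMulVec z z) = fun χ =>
    ∑ w : κ → ZMod 2, (∏ j, gam (w j)) * bc (fun p : ι × κ => (z p.1 : ZMod 2) * w p.2) χ := by
  ext χ
  simp only [phi, quad_rank, I_zpow_sq, cast_dot]
  rw [Fintype.prod_sum]
  refine sum_congr rfl fun w _ => ?_
  rw [prod_mul_distrib, bc, Fintype.prod_prod_type_right]
  congr 1
  refine prod_congr rfl fun j _ => ?_
  rw [← sgn_sum, mul_sum]
  congr 1
  exact sum_congr rfl fun _ _ => by ring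

lemma phi_two (k : ℤ) (z : ι → ℤ) : phi κ ((2 * k) • vecMulVec z z) =
    bc (fun p : ι × κ => (k : ZMod 2) * (z p.1 : ZMod 2)) := by
  ext χ
  simp only [phi, smul_mulVec, dotProduct_smul, quad_rank, smul_eq_mul, I_zpow_two, cast_dot]
  rw [bc, Fintype.prod_prod_type_right]
  refine prod_congr rfl fun j _ => ?_
  rw [← sgn_sum, mul_sum]
  congr 1
  exact sum_congr rfl fun _ _ => by ring

lemma phi_one [DecidableEq ι] [DecidableEq κ] : phi κ (1 : Matrix ι ι ℤ) = fun χ =>
    ∑ w : ι × κ → ZMod 2, (∏ p, gam (w p)) * bc w χ := by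
  ext χ
  simp only [phi, one_mulVec, dotProduct, bc, ← prod_mul_distrib]
  rw [← Fintype.prod_sum (fun p c => gam c * sgn (c * χ p)), Fintype.prod_prod_type_right]
  refine prod_congr rfl fun j _ => ?_
  rw [I_zpow_sum]
  exact prod_congr rfl fun i _ => by simp [I_zpow_sq]

end frame

section dec
variable {ι : Type*}

/-- `Dec B c`: modulo two, `B` is a sum of `c` symmetric rank-one matrices. -/
inductive Dec : Matrix ι ι ℤ → ℕ → Prop
  | zero : Dec 0 0
  | rank {B : Matrix ι ι ℤ} {c : ℕ} (z : ι → ℤ) : Dec B c → Dec (B + vecMulVec z z) (c + 1)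
  | two {B : Matrix ι ι ℤ} {c : ℕ} (k : ℤ) (z : ι → ℤ) :
      Dec B c → Dec (B + (2 * k) • vecMulVec z z) c

lemma Dec.of_eq {B B' : Matrix ι ι ℤ} {c c' : ℕ} (h : Dec B c) (hB : B = B') (hc : c = c') :
    Dec B' c' := hB ▸ hc ▸ h

lemma Dec.one_rank (z : ι → ℤ) : Dec (vecMulVec z z) 1 := (Dec.zero.rank z).of_eq (by simp) rfl

lemma Dec.add {B B' : Matrix ι ι ℤ} {c c' : ℕ} (h : Dec B c) (h' : Dec B' c') :
    Dec (B + B') (c + c') := by
  induction h' with
  | zero => simpa using h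
  | rank z _ ih => exact (ih.rank z).of_eq (add_assoc _ _ _) rfl
  | two k z _ ih => exact (ih.two k z).of_eq (add_assoc _ _ _) rfl

lemma Dec.neg {B : Matrix ι ι ℤ} {c : ℕ} (h : Dec B c) : Dec (-B) c := by
  induction h with
  | zero => simpa using Dec.zero
  | rank z _ ih => exact ((ih.rank z).two (-1) z).of_eq (by module) rfl
  | two k z _ ih => exact (ih.two (-k) z).of_eq (by module) rfl

lemma Dec.sum {α : Type*} (s : Finset α) {B : α → Matrix ι ι ℤ} {c : ℕ}
    (h : ∀ a ∈ s, Dec (B a) c) : Dec (∑ a ∈ s, B a) (#s * c) := by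
  classical
  induction s using Finset.induction_on with
  | empty => simpa using Dec.zero
  | insert a s ha ih =>
    rw [sum_insert ha, card_insert_of_notMem ha]
    exact ((h a (mem_insert_self _ _)).add (ih fun b hb => h b (mem_insert_of_mem hb))).of_eq rfl
      (by ring)

lemma Dec.map {ι' : Type*} (e : Matrix ι ι ℤ →ₗ[ℤ] Matrix ι' ι' ℤ)
    (he : ∀ z, ∃ z', e (vecMulVec z z) = vecMulVec z' z') {B : Matrix ι ι ℤ} {c : ℕ}
    (h : Dec B c) : Dec (e B) c := by
  induction h with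
  | zero => simpa using Dec.zero
  | rank z _ ih =>
    obtain ⟨z', hz⟩ := he z
    exact (ih.rank z').of_eq (by rw [map_add, hz]) rfl
  | two k z _ ih =>
    obtain ⟨z', hz⟩ := he z
    exact (ih.two k z').of_eq (by rw [map_add, map_smul, hz]) rfl

variable {κ : Type*} [Fintype ι] [Fintype κ] [DecidableEq ι] [DecidableEq κ]
  {E : Type*} [AddCommGroup E] [Module ℂ E]

/-- The unit cost hypothesis. -/
def UnitCost (ι κ : Type*) [Fintype ι] [Fintype κ] [DecidableEq ι] [DecidableEq κ]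
    (E : Type*) [AddCommGroup E] [Module ℂ E] (U : ℝ) : Prop :=
  ∀ (z : ι → ℤ) (a : (ι × κ → ZMod 2) → E),
    Gen (Set.range a) U (Set.range (Tm (phi κ (vecMulVec z z)) a))

lemma range_Tm_bc {P : Type*} [Fintype P] [DecidableEq P] (t : P → ZMod 2)
    (a : (P → ZMod 2) → E) : Set.range (Tm (bc t) a) ⊆ Set.range a := by
  rintro _ ⟨x, rfl⟩
  exact ⟨x + t, (Tm_bc t a x).symm⟩

lemma Dec.sound {U : ℝ} (hU : UnitCost ι κ E U) {B : Matrix ι ι ℤ} {c : ℕ} (h : Dec B c)
    (a : (ι × κ → ZMod 2) → E) :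
    Gen (Set.range a) (c * U) (Set.range (Tm (phi κ B) a)) := by
  induction h with
  | zero => simpa [phi_zero, Tm_one] using Gen.of_subset' (subset_refl (Set.range a))
  | @rank B c z _ ih =>
    rw [add_comm B, phi_add, Tm_mul]
    refine (ih.trans (hU z _)).cost ?_
    push_cast
    linarith
  | @two B c k z _ ih =>
    rw [add_comm B, phi_add, Tm_mul, phi_two]
    exact ih.right (range_Tm_bc _ _)

lemma Dec.move {U : ℝ} (hU : UnitCost ι κ E U) {B B' : Matrix ι ι ℤ} {c : ℕ} (h : Dec (B' - B) c)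
    (a : (ι × κ → ZMod 2) → E) :
    Gen (Set.range (Tm (phi κ B) a)) (c * U) (Set.range (Tm (phi κ B') a)) := by
  have := h.sound hU (Tm (phi κ B) a)
  rwa [← Tm_mul, ← phi_add, sub_add_cancel] at this

end dec

end Crest.Agent.H0324
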