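import Crest.Agent.H0324.Triple

set_option autoImplicit false

namespace Crest.Agent.H0324

open Finset Matrix Kronecker

section net
variable {ι κ : Type*} [Fintype ι] [Fintype κ] [DecidableEq ι] [DecidableEq κ]
  {E : Type*} [AddCommGroup E] [Module ℂ E]

/-- The entries of the array `a` written in the frame `B`. -/
def has (B : Matrix ι ι ℤ) (a : (ι × κ → ZMod 2) → E) : Set E := Set.range (Tm (phi κ B) a)

lemma has_congr {B B' : Matrix ι ι ℤ} {a a' : (ι × κ → ZMod 2) → E} {S : Set E}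
    (h : has B a ⊆ S) (hB : B' = B) (ha : a' = a) : has B' a' ⊆ S := hB ▸ ha ▸ h

/-- The size of an array. -/
noncomputable def gs (ι κ : Type*) [Fintype ι] [Fintype κ] [DecidableEq ι] [DecidableEq κ] : ℝ :=
  Fintype.card (ι × κ → ZMod 2)

lemma Gen.ex {S T : Set E} {c : ℝ} (h : Gen S c T) : ∃ S', S ⊆ S' ∧ Gen S c S' ∧ T ⊆ S' :=
  ⟨S ∪ T, Set.subset_union_left, h.keep, Set.subset_union_right⟩

lemma Gen.exF {α : Type*} [Fintype α] {S : Set E} {T : α → Set E} {c : ℝ}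
    (h : ∀ i, Gen S c (T i)) : ∃ S', S ⊆ S' ∧ Gen S (Fintype.card α * c) S' ∧ ∀ i, T i ⊆ S' := by
  obtain ⟨S', h1, h2, h3⟩ := (Gen.iUnion' h).ex
  exact ⟨S', h1, h2, fun i => (Set.subset_iUnion T i).trans h3⟩

lemma mvF {U : ℝ} (hU : UnitCost ι κ E U) {α : Type*} [Fintype α] {B : α → Matrix ι ι ℤ}
    (B' : α → Matrix ι ι ℤ)
    {a : α → (ι × κ → ZMod 2) → E} (c : ℕ) {S : Set E} (hS : ∀ i, has (B i) (a i) ⊆ S)
    (h : ∀ i, Dec (B' i - B i) c) :
    ∃ S', S ⊆ S' ∧ Gen S (Fintype.card α * (c * U)) S' ∧ ∀ i, has (B' i) (a i) ⊆ S' :=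
  Gen.exF fun i => ((h i).move hU (a i)).left (hS i)

lemma cmbF {α β : Type*} [Fintype α] [Fintype β] (B : α → Matrix ι ι ℤ) (c : α → β → ℂ)
    (a : β → (ι × κ → ZMod 2) → E) {S : Set E}
    (hS : ∀ i j, c i j ≠ 0 → has (B i) (a j) ⊆ S) :
    ∃ S', S ⊆ S' ∧ Gen S (Fintype.card α * (gs ι κ * Fintype.card β)) S' ∧
      ∀ i, has (B i) (∑ j, c i j • a j) ⊆ S' := by
  refine Gen.exF fun i => Gen.range fun x => ?_
  simp only [map_sum, map_smul, Finset.sum_apply, Pi.smul_apply]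
  exact Gen.sum univ _ _ fun j _ hj => hS i j hj ⟨x, rfl⟩

lemma binF {α : Type*} [Fintype α] {B : α → Matrix ι ι ℤ} (c d : ℂ)
    {a b : α → (ι × κ → ZMod 2) → E} {S : Set E}
    (ha : ∀ i, has (B i) (a i) ⊆ S) (hb : ∀ i, has (B i) (b i) ⊆ S) :
    ∃ S', S ⊆ S' ∧ Gen S (Fintype.card α * (gs ι κ * 1)) S' ∧
      ∀ i, has (B i) (c • a i + d • b i) ⊆ S' := by
  refine Gen.exF fun i => Gen.range fun x => ?_
  simp only [map_add, map_smul, Pi.add_apply, Pi.smul_apply]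
  exact Gen.lin c d (ha i ⟨x, rfl⟩) (hb i ⟨x, rfl⟩)

variable {α : Type*} [Fintype α] [DecidableEq α]

/-- Frame changes in one invocation. -/
noncomputable def Ku (α : Type*) [Fintype α] [DecidableEq α] : ℝ :=
  2 * Fintype.card (Tr α) * (Fintype.card α - 1) + Fintype.card (Nb α) * Fintype.card α +
    (Fintype.card α + 1) * Fintype.card α

/-- Linear gates in one invocation. -/
noncomputable def Kg (α : Type*) [Fintype α] [DecidableEq α] : ℝ :=
  2 * Fintype.card (Tr α) * Fintype.card (Nb α) + 2 * Fintype.card (Nb α) +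
    2 * (Fintype.card α + 1) * Fintype.card (Tr α) + 3 * Fintype.card (Tr α)

lemma fwd {U : ℝ} (hU : UnitCost ι κ E U) (h8 : 8 ≤ Fintype.card α) (D : Matrix ι ι ℤ)
    (e : Matrix α α ℤ →ₗ[ℤ] Matrix ι ι ℤ) (he : ∀ B c, Dec B c → Dec (e B) c)
    (x y : Tr α → (ι × κ → ZMod 2) → E) (A : Nb α → (ι × κ → ZMod 2) → E) {S0 : Set E}
    (hx : ∀ T, has (D + e (pm T.1)) (x T) ⊆ S0) (hy : ∀ S, has D (y S) ⊆ S0)
    (hA : ∀ n, has D (A n) ⊆ S0) :
    Gen S0 (Ku α * U + Kg α * gs ι κ) ((⋃ T, has (D + e 1) (x T)) ∪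
      (⋃ S, has (D + e (1 - pm S.1)) (y S + x S)) ∪ ⋃ n, has (D + e 1) (A n)) := by
  obtain ⟨S1, s1, g1, h1⟩ := cmbF (fun _ => D) cJ A (fun _ n _ => hA n)
  obtain ⟨S2, s2, g2, h2⟩ := binF 1 (-1) (fun S => (hy S).trans s1) h1
  obtain ⟨S3, s3, g3, h3⟩ := mvF hU (fun n : Nb α => D + e (pm n.1.2.1)) 1
    (fun n => (hA n).trans (s1.trans s2))
    (fun n => (he _ _ (dec_pm n.1.2.1)).of_eq (by abel) rfl)
  obtain ⟨S4, s4, g4, h4⟩ := binF 1 1 h3 (fun n => (hx n.1.2).trans (s1.trans (s2.trans s3)))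
  obtain ⟨S5, s5, g5, h5⟩ := mvF hU (fun _ : Tr α => D + e 1) (Fintype.card α - 1)
    (fun T => (hx T).trans (s1.trans (s2.trans (s3.trans s4))))
    (fun T => (he _ _ (dec_compl_one T.2 h8)).of_eq (by rw [map_sub]; abel) rfl)
  obtain ⟨S6, s6, g6, h6⟩ := cmbF (fun _ => D + e 1) cG x (fun _ T _ => h5 T)
  obtain ⟨S7, s7, g7, h7⟩ := mvF hU (fun _ : Option α => D) (Fintype.card α) h6
    (fun _ => (he _ _ dec_one).neg.of_eq (by abel) rfl)
  obtain ⟨S8, s8, g8, h8'⟩ := cmbF (fun _ => D) cR _ (fun _ o _ => h7 o)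
  obtain ⟨S9, s9, g9, h9⟩ := binF 1 1
    (fun S => (h2 S).trans (s3.trans (s4.trans (s5.trans (s6.trans (s7.trans s8)))))) h8'
  obtain ⟨S10, s10, g10, h10⟩ := mvF hU (fun S : Tr α => D + e (1 - pm S.1)) (Fintype.card α - 1)
    h9 (fun S => (he _ _ (dec_compl_one S.2 h8)).of_eq (by abel) rfl)
  obtain ⟨S11, s11, g11, h11⟩ := mvF hU (fun n : Nb α => D + e (1 - pm n.1.1.1))
    (Fintype.card α - 2)
    (fun n => (h4 n).trans (s5.trans (s6.trans (s7.trans (s8.trans (s9.trans s10))))))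
    (fun n => (he _ _ (dec_compl_two n.1.1.2 n.1.2.2 (fun h => n.2.1 (Subtype.ext h)) n.2.2
      h8)).of_eq (by simp only [map_sub]; abel) rfl)
  obtain ⟨S12, s12, g12, h12⟩ := cmbF (fun S : Tr α => D + e (1 - pm S.1)) cJ _
    (fun S n hn => by rw [← cJ_ne hn]; exact h11 n)
  obtain ⟨S13, s13, g13, h13⟩ := binF 1 1 (fun S => (h10 S).trans (s11.trans s12)) h12
  obtain ⟨S14, s14, g14, h14⟩ := mvF hU (fun _ : Nb α => D + e 1) 1
    (fun n => (h11 n).trans (s12.trans s13))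
    (fun n => (he _ _ (dec_pm n.1.1.1)).of_eq (by rw [map_sub]; abel) rfl)
  obtain ⟨S15, s15, g15, h15⟩ := binF 1 (-1) h14 (fun n => (h5 n.1.2).trans (s6.trans (s7.trans
    (s8.trans (s9.trans (s10.trans (s11.trans (s12.trans (s13.trans s14)))))))))
  refine (((((((((((((((g1.trans g2).trans g3).trans g4).trans g5).trans g6).trans g7).trans
    g8).trans g9).trans g10).trans g11).trans g12).trans g13).trans g14).trans g15).cost
    (le_of_eq ?_)).right ?_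
  · rw [Nat.cast_sub (by omega), Nat.cast_sub (by omega), Fintype.card_option, Ku, Kg]
    push_cast
    ring
  · refine Set.union_subset (Set.union_subset (Set.iUnion_subset fun T => ?_)
      (Set.iUnion_subset fun S => ?_)) (Set.iUnion_subset fun n => ?_)
    · exact (h5 T).trans (s6.trans (s7.trans
        (s8.trans (s9.trans (s10.trans (s11.trans (s12.trans (s13.trans (s14.trans s15)))))))))
    · refine has_congr ((h13 S).trans (s14.trans s15)) rfl ?_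
      rw [← coef_id' x S]
      simp only [one_smul, smul_add, sum_add_distrib, neg_smul]
      abel
    · exact has_congr (h15 n) rfl (by simp)

lemma rev {U : ℝ} (hU : UnitCost ι κ E U) (h8 : 8 ≤ Fintype.card α) (D : Matrix ι ι ℤ)
    (e : Matrix α α ℤ →ₗ[ℤ] Matrix ι ι ℤ) (he : ∀ B c, Dec B c → Dec (e B) c)
    (x y : Tr α → (ι × κ → ZMod 2) → E) (A : Nb α → (ι × κ → ZMod 2) → E) {S0 : Set E}
    (hx : ∀ T, has D (x T) ⊆ S0) (hy : ∀ S, has (D + e (pm S.1)) (y S) ⊆ S0)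
    (hA : ∀ n, has D (A n) ⊆ S0) :
    Gen S0 (Ku α * U + Kg α * gs ι κ) ((⋃ T, has (D + e (1 - pm T.1)) (x T)) ∪
      (⋃ S, has (D + e 1) (y S - x S)) ∪ ⋃ n, has (D + e 1) (A n)) := by
  obtain ⟨S1, s1, g1, h1⟩ := binF 1 1 hA (fun n => hx n.1.2)
  obtain ⟨S2, s2, g2, h2⟩ := cmbF (fun _ => D) cG x (fun _ T _ => (hx T).trans s1)
  obtain ⟨S3, s3, g3, h3⟩ := mvF hU (fun _ : Option α => D + e 1) (Fintype.card α) h2
    (fun _ => (he _ _ dec_one).of_eq (by abel) rfl)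
  obtain ⟨S4, s4, g4, h4⟩ := mvF hU (fun n : Nb α => D + e (pm n.1.1.1)) 1
    (fun n => (h1 n).trans (s2.trans s3))
    (fun n => (he _ _ (dec_pm n.1.1.1)).of_eq (by abel) rfl)
  obtain ⟨S5, s5, g5, h5⟩ := cmbF (fun S : Tr α => D + e (pm S.1)) cJ _
    (fun S n hn => by rw [← cJ_ne hn]; exact h4 n)
  obtain ⟨S6, s6, g6, h6⟩ := binF 1 (-1)
    (fun S => (hy S).trans (s1.trans (s2.trans (s3.trans (s4.trans s5))))) h5
  obtain ⟨S7, s7, g7, h7⟩ := mvF hU (fun _ : Tr α => D + e 1) (Fintype.card α - 1) h6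
    (fun S => (he _ _ (dec_compl_one S.2 h8)).of_eq (by rw [map_sub]; abel) rfl)
  obtain ⟨S8, s8, g8, h8'⟩ := mvF hU (fun n : Nb α => D + e (1 - pm n.1.2.1))
    (Fintype.card α - 2) (fun n => (h4 n).trans (s5.trans (s6.trans s7)))
    (fun n => (he _ _ (dec_compl_two n.1.1.2 n.1.2.2 (fun h => n.2.1 (Subtype.ext h)) n.2.2
      h8)).of_eq (by simp only [map_sub]; abel) rfl)
  obtain ⟨S9, s9, g9, h9⟩ := mvF hU (fun T : Tr α => D + e (1 - pm T.1)) (Fintype.card α - 1)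
    (fun T => (hx T).trans (s1.trans (s2.trans (s3.trans (s4.trans (s5.trans (s6.trans
      (s7.trans s8))))))))
    (fun S => (he _ _ (dec_compl_one S.2 h8)).of_eq (by abel) rfl)
  obtain ⟨S10, s10, g10, h10⟩ := binF 1 (-1) (fun n => (h8' n).trans s9) (fun n => h9 n.1.2)
  obtain ⟨S11, s11, g11, h11⟩ := mvF hU (fun _ : Nb α => D + e 1) 1 h10
    (fun n => (he _ _ (dec_pm n.1.2.1)).of_eq (by rw [map_sub]; abel) rfl)
  obtain ⟨S12, s12, g12, h12⟩ := cmbF (fun _ => D + e 1) cJ _ (fun _ n _ => h11 n)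
  obtain ⟨S13, s13, g13, h13⟩ := cmbF (fun _ => D + e 1) cR _ (fun _ o _ => (h3 o).trans
    (s4.trans (s5.trans (s6.trans (s7.trans (s8.trans (s9.trans (s10.trans (s11.trans s12)))))))))
  obtain ⟨S14, s14, g14, h14⟩ := binF 1 (-1) (fun S => (h7 S).trans
    (s8.trans (s9.trans (s10.trans (s11.trans (s12.trans s13)))))) h13
  obtain ⟨S15, s15, g15, h15⟩ := binF 1 1 h14 (fun S => (h12 S).trans (s13.trans s14))
  refine (((((((((((((((g1.trans g2).trans g3).trans g4).trans g5).trans g6).trans g7).trans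
    g8).trans g9).trans g10).trans g11).trans g12).trans g13).trans g14).trans g15).cost
    (le_of_eq ?_)).right ?_
  · rw [Nat.cast_sub (by omega), Nat.cast_sub (by omega), Fintype.card_option, Ku, Kg]
    push_cast
    ring
  · refine Set.union_subset (Set.union_subset (Set.iUnion_subset fun T => ?_)
      (Set.iUnion_subset fun S => ?_)) (Set.iUnion_subset fun n => ?_)
    · exact (h9 T).trans (s10.trans (s11.trans (s12.trans (s13.trans (s14.trans s15)))))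
    · refine has_congr (h15 S) rfl ?_
      rw [← coef_id' x S]
      simp only [one_smul, smul_add, sum_add_distrib, neg_smul, add_neg_cancel_right]
      abel
    · exact has_congr ((h11 n).trans (s12.trans (s13.trans (s14.trans s15)))) rfl (by simp)

end net

section glob
variable {α : Type*} [Fintype α] [DecidableEq α]

/-- Triple Kronecker product. -/
def k3 (A B C : Matrix α α ℤ) : Matrix (α × α × α) (α × α × α) ℤ := A ⊗ₖ (B ⊗ₖ C)

omit [Fintype α] [DecidableEq α] in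
lemma dec_k3 {A B C : Matrix α α ℤ} {a b c : ℕ} (hA : Dec A a) (hB : Dec B b) (hC : Dec C c) :
    Dec (k3 A B C) (a * (b * c)) := hA.kron (hB.kron hC)

omit [Fintype α] in
lemma k3_one : k3 (1 : Matrix α α ℤ) 1 1 = 1 := by simp [k3]

omit [Fintype α] [DecidableEq α] in
lemma k3_apply (A B C : Matrix α α ℤ) (p q : α × α × α) :
    k3 A B C p q = A p.1 q.1 * (B p.2.1 q.2.1 * C p.2.2 q.2.2) := rfl

/-- First slot. -/
def e1 (B C : Matrix α α ℤ) : Matrix α α ℤ →ₗ[ℤ] Matrix (α × α × α) (α × α × α) ℤ where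
  toFun A := k3 A B C
  map_add' _ _ := by ext; simp [k3_apply]; ring
  map_smul' _ _ := by
    ext; simp only [k3_apply, Matrix.smul_apply, smul_eq_mul, RingHom.id_apply]; ring

/-- Second slot. -/
def e2 (A C : Matrix α α ℤ) : Matrix α α ℤ →ₗ[ℤ] Matrix (α × α × α) (α × α × α) ℤ where
  toFun B := k3 A B C
  map_add' _ _ := by ext; simp [k3_apply]; ring
  map_smul' _ _ := by
    ext; simp only [k3_apply, Matrix.smul_apply, smul_eq_mul, RingHom.id_apply]; ring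

/-- Third slot. -/
def e3 (A B : Matrix α α ℤ) : Matrix α α ℤ →ₗ[ℤ] Matrix (α × α × α) (α × α × α) ℤ where
  toFun C := k3 A B C
  map_add' _ _ := by ext; simp [k3_apply]; ring
  map_smul' _ _ := by
    ext; simp only [k3_apply, Matrix.smul_apply, smul_eq_mul, RingHom.id_apply]; ring

variable {κ : Type*} [Fintype κ] [DecidableEq κ] {E : Type*} [AddCommGroup E] [Module ℂ E]

lemma has_one {ι : Type*} [Fintype ι] [DecidableEq ι] (a : (ι × κ → ZMod 2) → E) :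
    has 1 a = Set.range (Fop a) := by
  rw [has, phi_one]
  congr 1
  funext x
  rw [Tm_sum]
  rfl

lemma has_zero {ι : Type*} [Fintype ι] [DecidableEq ι] (a : (ι × κ → ZMod 2) → E) :
    has 0 a = Set.range a := by
  rw [has, phi_zero, Tm_one]

lemma has_Tm {ι : Type*} [Fintype ι] [DecidableEq ι] (B B' : Matrix ι ι ℤ)
    (a : (ι × κ → ZMod 2) → E) : has B (Tm (phi κ B') a) = has (B + B') a := by
  rw [has, has, phi_add, Tm_mul]

/-- Matrix identities are checked entrywise. -/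
macro "k3_ring" : tactic => `(tactic| (
  rw [← k3_one]
  ext p q
  simp only [e1, e2, e3, LinearMap.coe_mk, AddHom.coe_mk, k3_apply, Matrix.add_apply,
    Matrix.sub_apply, Matrix.neg_apply, Matrix.zero_apply, Matrix.smul_apply, smul_eq_mul]
  ring))

/-- Matrix identities are checked entrywise. -/
macro "k3_ring'" : tactic => `(tactic| (
  ext p q
  simp only [e1, e2, e3, LinearMap.coe_mk, AddHom.coe_mk, k3_apply, Matrix.add_apply,
    Matrix.sub_apply, Matrix.neg_apply, Matrix.zero_apply, Matrix.smul_apply, smul_eq_mul]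
  ring))

theorem gadget {U : ℝ} (hU : UnitCost (α × α × α) κ E U) (h8 : 8 ≤ Fintype.card α)
    (aX aY : Tr α × Tr α × Tr α → ((α × α × α) × κ → ZMod 2) → E)
    (a1 a2 a3 : (Tr α × Tr α) × Nb α → ((α × α × α) × κ → ZMod 2) → E) {S0 : Set E}
    (hX : ∀ s, Set.range (aX s) ⊆ S0) (hY : ∀ s, Set.range (aY s) ⊆ S0)
    (hA1 : ∀ s, Set.range (a1 s) ⊆ S0) (hA2 : ∀ s, Set.range (a2 s) ⊆ S0)
    (hA3 : ∀ s, Set.range (a3 s) ⊆ S0) :
    ∃ S, Gen S0 ((2 * (Fintype.card (Tr α) : ℝ) ^ 3 * ((Fintype.card α : ℝ) ^ 3 - 1) +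
        3 * (Fintype.card (Tr α) : ℝ) ^ 2 * (Fintype.card (Nb α) * (Fintype.card α : ℝ) ^ 3 +
          (Fintype.card α + 1) * Fintype.card α)) * U +
        (3 * (Fintype.card (Tr α) : ℝ) ^ 2 * Kg α + (Fintype.card (Tr α) : ℝ) ^ 3) *
          gs (α × α × α) κ) S ∧
      (∀ s, Set.range (Fop (aX s)) ⊆ S) ∧ (∀ s, Set.range (Fop (aY s)) ⊆ S) ∧
      (∀ s, Set.range (Fop (a1 s)) ⊆ S) ∧ (∀ s, Set.range (Fop (a2 s)) ⊆ S) ∧
      ∀ s, Set.range (Fop (a3 s)) ⊆ S := by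
  set h := Fintype.card α with hh
  have d1 : Dec (1 : Matrix α α ℤ) h := dec_one
  have dp : ∀ S : Tr α, Dec (pm S.1) 1 := fun S => dec_pm _
  have dc : ∀ S : Tr α, Dec (1 - pm S.1) (h - 1) := fun S => dec_compl_one S.2 h8
  let x : Tr α × Tr α × Tr α → ((α × α × α) × κ → ZMod 2) → E := fun s =>
    Tm (phi κ (-k3 (pm s.1.1) (pm s.2.1.1) (pm s.2.2.1))) (aX s)
  -- stage 1
  obtain ⟨S1, s1, g1, H1⟩ := Gen.exF (S := S0) fun p : Tr α × Tr α =>
    fwd hU h8 0 (e1 (pm p.1.1) (pm p.2.1))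
      (fun B c hB => (dec_k3 hB (dp _) (dp _)).of_eq rfl (by ring))
      (fun T => x (T, p)) (fun T => aY (T, p)) (fun n => a1 (p, n))
      (fun T => by
        rw [has_Tm]
        exact has_congr (B := 0) (by rw [has_zero]; exact hX _) (by k3_ring') rfl)
      (fun T => by rw [has_zero]; exact hY _) (fun n => by rw [has_zero]; exact hA1 _)
  simp only [Set.union_subset_iff, Set.iUnion_subset_iff] at H1
  obtain ⟨S2, s2, g2, H2⟩ := mvF hU (fun _ : (Tr α × Tr α) × Nb α => 1) (h * ((h - 1) * h) +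
    h * (1 * (h - 1))) (fun s => (H1 s.1).2 s.2)
    (fun s => ((dec_k3 d1 (dc s.1.1) d1).add (dec_k3 d1 (dp s.1.1) (dc s.1.2))).of_eq
      (by k3_ring) rfl)
  -- stage 2
  obtain ⟨S3, s3, g3, H3⟩ := mvF hU
    (fun s : Tr α × Tr α × Tr α => k3 (1 - pm s.1.1) 1 (pm s.2.2.1)) ((h - 1) * ((h - 1) * 1))
    (fun s => ((H1 s.2).1.2 s.1).trans s2)
    (fun s => (dec_k3 (dc s.1) (dc s.2.1) (dp s.2.2)).of_eq (by k3_ring') rfl)
  obtain ⟨S4, s4, g4, H4⟩ := mvF hU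
    (fun s : Tr α × Tr α × Tr α => k3 (1 - pm s.1.1) 1 (pm s.2.2.1) +
      e2 (pm s.1.1) (pm s.2.2.1) (pm s.2.1.1)) ((h - 1) * ((h - 1) * 1))
    (fun s => ((H1 s.2).1.1 s.1).trans (s2.trans s3))
    (fun s => (dec_k3 (dc s.1) (dc s.2.1) (dp s.2.2)).of_eq (by k3_ring') rfl)
  obtain ⟨S5, s5, g5, H5⟩ := mvF hU (B := fun _ => 0)
    (fun s : (Tr α × Tr α) × Nb α => k3 (1 - pm s.1.1.1) 1 (pm s.1.2.1)) ((h - 1) * (h * 1))
    (a := a2) (S := S4)
    (fun s => by rw [has_zero]; exact (hA2 s).trans (s1.trans (s2.trans (s3.trans s4))))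
    (fun s => (dec_k3 (dc s.1.1) d1 (dp s.1.2)).of_eq (by simp) rfl)
  obtain ⟨S6, s6, g6, H6⟩ := Gen.exF (S := S5) fun p : Tr α × Tr α =>
    rev hU h8 (k3 (1 - pm p.1.1) 1 (pm p.2.1)) (e2 (pm p.1.1) (pm p.2.1))
      (fun B c hB => (dec_k3 (dp _) hB (dp _)).of_eq rfl (by ring))
      (fun T => aY (p.1, T, p.2) + x (p.1, T, p.2)) (fun T => x (p.1, T, p.2))
      (fun n => a2 (p, n))
      (fun T => (H3 (p.1, T, p.2)).trans (s4.trans s5))
      (fun T => (H4 (p.1, T, p.2)).trans s5) (fun n => H5 (p, n))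
  simp only [Set.union_subset_iff, Set.iUnion_subset_iff] at H6
  obtain ⟨S7, s7, g7, H7⟩ := mvF hU (fun _ : (Tr α × Tr α) × Nb α => 1) (h * (h * (h - 1)))
    (fun s => (H6 s.1).2 s.2)
    (fun s => (dec_k3 d1 d1 (dc s.1.2)).of_eq (by k3_ring) rfl)
  -- stage 3
  obtain ⟨S8, s8, g8, H8⟩ := mvF hU
    (fun s : Tr α × Tr α × Tr α => 1 - k3 (pm s.1.1) (pm s.2.1.1) 1)
    ((h - 1) * (h * (h - 1)) + 1 * ((h - 1) * (h - 1)))
    (fun s => ((H6 (s.1, s.2.2)).1.1 s.2.1).trans s7)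
    (fun s => ((dec_k3 (dc s.1) d1 (dc s.2.2)).add
      (dec_k3 (dp s.1) (dc s.2.1) (dc s.2.2))).of_eq (by k3_ring) rfl)
  obtain ⟨S9, s9, g9, H9⟩ := mvF hU
    (fun s : Tr α × Tr α × Tr α => 1 - k3 (pm s.1.1) (pm s.2.1.1) 1 +
      e3 (pm s.1.1) (pm s.2.1.1) (pm s.2.2.1))
    ((h - 1) * (h * (h - 1)) + 1 * ((h - 1) * (h - 1)))
    (fun s => ((H6 (s.1, s.2.2)).1.2 s.2.1).trans (s7.trans s8))
    (fun s => ((dec_k3 (dc s.1) d1 (dc s.2.2)).add
      (dec_k3 (dp s.1) (dc s.2.1) (dc s.2.2))).of_eq (by k3_ring) rfl)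
  obtain ⟨S10, s10, g10, H10⟩ := mvF hU (B := fun _ => 0)
    (fun s : (Tr α × Tr α) × Nb α => 1 - k3 (pm s.1.1.1) (pm s.1.2.1) 1)
    ((h - 1) * (h * h) + 1 * ((h - 1) * h)) (a := a3) (S := S9)
    (fun s => by
      rw [has_zero]
      exact (hA3 s).trans (s1.trans (s2.trans (s3.trans (s4.trans (s5.trans (s6.trans
        (s7.trans (s8.trans s9)))))))))
    (fun s => ((dec_k3 (dc s.1.1) d1 d1).add (dec_k3 (dp s.1.1) (dc s.1.2) d1)).of_eq
      (by k3_ring) rfl)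
  obtain ⟨S11, s11, g11, H11⟩ := Gen.exF (S := S10) fun p : Tr α × Tr α =>
    fwd hU h8 (1 - k3 (pm p.1.1) (pm p.2.1) 1) (e3 (pm p.1.1) (pm p.2.1))
      (fun B c hB => (dec_k3 (dp _) (dp _) hB).of_eq rfl (by ring))
      (fun T => x (p.1, p.2, T) - (aY (p.1, p.2, T) + x (p.1, p.2, T)))
      (fun T => aY (p.1, p.2, T) + x (p.1, p.2, T)) (fun n => a3 (p, n))
      (fun T => (H9 (p.1, p.2, T)).trans s10)
      (fun T => (H8 (p.1, p.2, T)).trans (s9.trans s10)) (fun n => H10 (p, n))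
  simp only [Set.union_subset_iff, Set.iUnion_subset_iff] at H11
  obtain ⟨S12, s12, g12, H12⟩ := binF (-1) 0
    (fun s : Tr α × Tr α × Tr α => (H11 (s.1, s.2.1)).1.1 s.2.2)
    (fun s : Tr α × Tr α × Tr α => (H11 (s.1, s.2.1)).1.1 s.2.2)
  obtain ⟨S13, s13, g13, H13⟩ := mvF hU (fun _ : Tr α × Tr α × Tr α => 1) 0 (a := aX) (S := S12)
    (B := fun s => 1 - (2 * 1 : ℤ) • k3 (pm s.1.1) (pm s.2.1.1) (pm s.2.2.1))
    (fun s => by
      have := has_congr (a' := x s) (((H11 (s.1, s.2.1)).1.2 s.2.2).trans s12) rfl (by simp)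
      rw [has_Tm] at this
      exact has_congr this (by k3_ring) rfl)
    (fun s => ((dec_k3 (dp s.1) (dp s.2.1) (dp s.2.2)).two_smul 1).of_eq (by abel) rfl)
  refine ⟨S13, ((((((((((((g1.trans g2).trans g3).trans g4).trans g5).trans g6).trans g7).trans
    g8).trans g9).trans g10).trans g11).trans g12).trans g13).cost (le_of_eq ?_),
    fun s => ?_, fun s => ?_, fun s => ?_, fun s => ?_, fun s => ?_⟩
  · simp only [Fintype.card_prod, Ku, ← hh]
    push_cast [Nat.cast_sub (show 1 ≤ h by omega)]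
    ring
  · rw [← has_one]
    exact H13 s
  · rw [← has_one]
    exact has_congr ((H12 s).trans s13) (by k3_ring) (by simp)
  · rw [← has_one]
    exact (H2 s).trans (s3.trans (s4.trans (s5.trans (s6.trans (s7.trans (s8.trans (s9.trans
      (s10.trans (s11.trans (s12.trans s13))))))))))
  · rw [← has_one]
    exact (H7 s).trans (s8.trans (s9.trans (s10.trans (s11.trans (s12.trans s13)))))
  · rw [← has_one]
    exact has_congr (((H11 s.1).2 s.2).trans (s12.trans s13)) (by k3_ring) rfl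

end glob

end Crest.Agent.H0324
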