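import Crest.Prelude.Def_LinCircuit

set_option autoImplicit false

namespace Crest.Agent.H0324

open Finset

section gen
variable {E : Type*} [AddCommGroup E] [Module ℂ E]

/-- `Steps S n T`: the set `T` of values is obtained from `S` and `0` by `n` binary linear
combinations. -/
inductive Steps (S : Set E) : ℕ → Set E → Prop
  | base : Steps S 0 (insert 0 S)
  | lin {n : ℕ} {T : Set E} (a b : ℂ) {u v : E} : Steps S n T → u ∈ T → v ∈ T →
      Steps S (n + 1) (insert (a • u + b • v) T)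

lemma Steps.subset {S T : Set E} {n : ℕ} (h : Steps S n T) : insert 0 S ⊆ T := by
  induction h with
  | base => exact subset_rfl
  | lin a b _ _ _ ih => exact ih.trans (Set.subset_insert _ _)

lemma Steps.comp {S T S' T' : Set E} {n m : ℕ} (h : Steps S n T) (h' : Steps S' m T')
    (hS : S ⊆ T') : ∃ U, Steps S' (m + n) U ∧ T ⊆ U ∧ T' ⊆ U := by
  induction h with
  | base =>
    exact ⟨T', h', Set.insert_subset (h'.subset (Set.mem_insert _ _)) hS, subset_rfl⟩
  | lin a b _ hu hv ih =>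
    obtain ⟨U, h1, h2, h3⟩ := ih
    exact ⟨_, Steps.lin a b h1 (h2 hu) (h2 hv), Set.insert_subset_insert h2,
      h3.trans (Set.subset_insert _ _)⟩

/-- `Gen S c T`: all values in `T` can be generated from `S` at cost at most `c`. -/
def Gen (S : Set E) (c : ℝ) (T : Set E) : Prop :=
  ∃ n : ℕ, (n : ℝ) ≤ c ∧ ∃ T', Steps S n T' ∧ T ⊆ T'

lemma Gen.of_subset {S T : Set E} (h : T ⊆ insert 0 S) : Gen S 0 T :=
  ⟨0, by simp, _, Steps.base, h⟩

lemma Gen.of_subset' {S T : Set E} (h : T ⊆ S) : Gen S 0 T :=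
  Gen.of_subset (h.trans (Set.subset_insert _ _))

lemma Gen.nonneg {S T : Set E} {c : ℝ} (h : Gen S c T) : 0 ≤ c := by
  obtain ⟨n, hn, -⟩ := h
  exact le_trans (Nat.cast_nonneg n) hn

lemma Gen.trans_union {S T U : Set E} {c c' : ℝ} (h : Gen S c T) (h' : Gen (S ∪ T) c' U) :
    Gen S (c + c') (S ∪ T ∪ U) := by
  obtain ⟨n, hn, T', hT, hT'⟩ := h
  obtain ⟨m, hm, U', hU, hU'⟩ := h'
  have hS : S ⊆ T' := (Set.subset_insert _ _).trans hT.subset
  obtain ⟨V, h1, h2, h3⟩ := hU.comp hT (Set.union_subset hS hT')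
  exact ⟨n + m, by push_cast; linarith, V, h1,
    Set.union_subset (Set.union_subset (hS.trans h3) (hT'.trans h3)) (hU'.trans h2)⟩

lemma Gen.mono {S T S' T' : Set E} {c c' : ℝ} (h : Gen S c T) (hS : S ⊆ insert 0 S')
    (hc : c ≤ c') (hT : T' ⊆ T) : Gen S' c' T' := by
  obtain ⟨n, hn, U, hU, hU'⟩ := h
  obtain ⟨V, h1, h2, -⟩ := hU.comp Steps.base hS
  exact ⟨0 + n, by simpa using hn.trans hc, V, h1, hT.trans (hU'.trans h2)⟩

lemma Gen.left {S T S' : Set E} {c : ℝ} (h : Gen S c T) (hS : S ⊆ S') : Gen S' c T :=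
  h.mono (hS.trans (Set.subset_insert _ _)) le_rfl subset_rfl

lemma Gen.right {S T T' : Set E} {c : ℝ} (h : Gen S c T) (hT : T' ⊆ T) : Gen S c T' :=
  h.mono (Set.subset_insert _ _) le_rfl hT

lemma Gen.cost {S T : Set E} {c c' : ℝ} (h : Gen S c T) (hc : c ≤ c') : Gen S c' T :=
  h.mono (Set.subset_insert _ _) hc subset_rfl

lemma Gen.trans {S T U : Set E} {c c' : ℝ} (h : Gen S c T) (h' : Gen T c' U) :
    Gen S (c + c') U :=
  (h.trans_union (h'.left Set.subset_union_right)).right Set.subset_union_right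

lemma Gen.trans' {S T U : Set E} {c c' : ℝ} (h : Gen S c T) (h' : Gen (S ∪ T) c' U) :
    Gen S (c + c') U :=
  (h.trans_union h').right Set.subset_union_right

lemma Gen.union {S T U : Set E} {c c' : ℝ} (h : Gen S c T) (h' : Gen S c' U) :
    Gen S (c + c') (T ∪ U) :=
  (h.trans_union (h'.left Set.subset_union_left)).right
    (Set.union_subset_union_left _ Set.subset_union_right)

lemma Gen.keep {S T : Set E} {c : ℝ} (h : Gen S c T) : Gen S c (S ∪ T) := by
  simpa using (Gen.of_subset' (subset_refl S)).union h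

lemma Gen.biUnion {ι : Type*} (s : Finset ι) {S : Set E} {T : ι → Set E} {c : ι → ℝ}
    (h : ∀ i ∈ s, Gen S (c i) (T i)) : Gen S (∑ i ∈ s, c i) (⋃ i ∈ s, T i) := by
  classical
  induction s using Finset.induction_on with
  | empty => simpa using Gen.of_subset' (Set.empty_subset S)
  | insert a s ha ih =>
    rw [sum_insert ha, Finset.set_biUnion_insert]
    exact (h a (mem_insert_self _ _)).union (ih fun i hi => h i (mem_insert_of_mem hi))

lemma Gen.iUnion {ι : Type*} [Fintype ι] {S : Set E} {T : ι → Set E} {c : ι → ℝ}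
    (h : ∀ i, Gen S (c i) (T i)) : Gen S (∑ i, c i) (⋃ i, T i) := by
  simpa using Gen.biUnion univ (fun i _ => h i)

lemma Gen.iUnion' {ι : Type*} [Fintype ι] {S : Set E} {T : ι → Set E} {c : ℝ}
    (h : ∀ i, Gen S c (T i)) : Gen S (Fintype.card ι * c) (⋃ i, T i) := by
  simpa using Gen.iUnion h

lemma Gen.range {ι : Type*} [Fintype ι] {S : Set E} {f : ι → E} {c : ℝ}
    (h : ∀ i, Gen S c {f i}) : Gen S (Fintype.card ι * c) (Set.range f) := by
  simpa using Gen.iUnion' h

lemma Gen.lin {S : Set E} (a b : ℂ) {u v : E} (hu : u ∈ S) (hv : v ∈ S) :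
    Gen S 1 {a • u + b • v} :=
  ⟨1, by simp, _, Steps.lin a b Steps.base (Set.mem_insert_of_mem _ hu)
    (Set.mem_insert_of_mem _ hv), by simp⟩

lemma Gen.smul {S : Set E} (a : ℂ) {u : E} (hu : u ∈ S) : Gen S 1 {a • u} := by
  simpa using Gen.lin a 0 hu hu

lemma Gen.sum {ι : Type*} (s : Finset ι) {S : Set E} (c : ι → ℂ) (x : ι → E)
    (h : ∀ i ∈ s, c i ≠ 0 → x i ∈ S) : Gen S (#s) {∑ i ∈ s, c i • x i} := by
  classical
  induction s using Finset.induction_on with
  | empty => simpa using Gen.of_subset (S := S) (T := {0}) (by simp)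
  | insert a s ha ih =>
    rw [sum_insert ha, card_insert_of_notMem ha]
    have h1 := ih fun i hi => h i (mem_insert_of_mem hi)
    push_cast
    by_cases hc : c a = 0
    · simpa [hc] using h1.cost (by linarith)
    · refine h1.trans' ?_
      simpa using Gen.lin (S := S ∪ {∑ i ∈ s, c i • x i}) (c a) 1
        (Or.inl (h a (mem_insert_self _ _) hc)) (Or.inr rfl)

end gen

open Crest.FourierCircuit

lemma steps_circuit {n : ℕ} {m : ℕ} {T : Set ((Fin n → ℂ) → ℂ)}
    (h : Steps (Set.range fun (j : Fin n) (x : Fin n → ℂ) => x j) m T) :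
    ∃ l : List LGate, l.length = 3 * m ∧
      (∀ x : Fin n → ℂ, (l.foldl (fun avail g => avail ++ [g.value avail])
        (List.ofFn x ++ [0])).length = n + 1 + 3 * m) ∧
      ∀ t ∈ T, ∃ pos < n + 1 + 3 * m, ∀ x : Fin n → ℂ,
        (l.foldl (fun avail g => avail ++ [g.value avail]) (List.ofFn x ++ [0])).getD pos 0 =
          t x := by
  induction h with
  | base =>
    refine ⟨[], rfl, by simp, ?_⟩
    rintro t (rfl | ⟨j, rfl⟩)
    · exact ⟨n, by omega, fun x => by simp⟩
    · refine ⟨j, by omega, fun x => ?_⟩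
      simp [List.getD_eq_getElem?_getD]
  | @lin m T a b u v _ hu hv ih =>
    obtain ⟨l, h1, h2, h3⟩ := ih
    obtain ⟨pu, hpu, hpu'⟩ := h3 u hu
    obtain ⟨pv, hpv, hpv'⟩ := h3 v hv
    have key : ∀ x : Fin n → ℂ, (l ++ [LGate.smul a pu, LGate.smul b pv,
        LGate.add (n + 1 + 3 * m) (n + 1 + 3 * m + 1)]).foldl
        (fun avail g => avail ++ [g.value avail]) (List.ofFn x ++ [0]) =
        l.foldl (fun avail g => avail ++ [g.value avail]) (List.ofFn x ++ [0]) ++
          [a * u x, b * v x, a * u x + b * v x] := by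
      intro x
      have e1 := h2 x
      have e2 := hpu' x
      have e3 := hpv' x
      rw [List.foldl_append]
      generalize l.foldl (fun avail g => avail ++ [g.value avail]) (List.ofFn x ++ [0]) = L at *
      simp only [List.foldl_cons, List.foldl_nil, LGate.value, e2]
      rw [List.getD_append L _ _ pv (by omega), e3, ← e1]
      simp [List.getD_eq_getElem?_getD]
    refine ⟨l ++ [LGate.smul a pu, LGate.smul b pv,
        LGate.add (n + 1 + 3 * m) (n + 1 + 3 * m + 1)], by simp [h1]; omega,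
        fun x => by rw [key, List.length_append, h2]; simp; omega, ?_⟩
    rintro t (rfl | ht)
    · refine ⟨n + 1 + 3 * m + 2, by omega, fun x => ?_⟩
      rw [key, List.getD_append_right _ _ _ _ (by rw [h2]; omega), h2]
      simp
    · obtain ⟨pos, hp, hp'⟩ := h3 t ht
      refine ⟨pos, by omega, fun x => ?_⟩
      rw [key, List.getD_append _ _ _ _ (by rw [h2]; omega), hp']

lemma gen_circuit {n : ℕ} {c : ℝ} (A : Matrix (Fin n) (Fin n) ℂ)
    (h : Gen (Set.range fun (j : Fin n) (x : Fin n → ℂ) => x j) c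
      (Set.range fun k => ∑ j, A k j • fun x : Fin n → ℂ => x j)) :
    ∃ P : LinCircuit n, P.Computes A ∧ (P.size : ℝ) ≤ 3 * c := by
  obtain ⟨m, hm, T, hT, hT'⟩ := h
  obtain ⟨l, h1, -, h3⟩ := steps_circuit hT
  choose pos _ hpos using fun k => h3 _ (hT' ⟨k, rfl⟩)
  refine ⟨⟨l, pos⟩, fun x k => ?_, ?_⟩
  · rw [LinCircuit.values, hpos]
    simp [Matrix.mulVec, dotProduct]
  · rw [LinCircuit.size, h1]
    push_cast
    linarith

end Crest.Agent.H0324
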