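import Crest.Agent.H0324.Gadget

set_option autoImplicit false

namespace Crest.Agent.H0324

open Finset Matrix Crest.FourierCircuit

variable {E : Type*} [AddCommGroup E] [Module ℂ E]

/-- Amortized cost `c` per instance for batches whose size is a multiple of `D`. -/
def FC (E : Type*) [AddCommGroup E] [Module ℂ E] (D : ℕ) (κ : Type) [Fintype κ] [DecidableEq κ]
    (c : ℝ) : Prop :=
  ∀ (J : Type) [Fintype J] (b : J → (κ → ZMod 2) → E) (S : Set E), D ∣ Fintype.card J →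
    (∀ j, Set.range (b j) ⊆ S) → Gen S (Fintype.card J * c) (⋃ j, Set.range (Fop (b j)))

section basic
variable {κ κ' : Type} [Fintype κ] [DecidableEq κ] [Fintype κ'] [DecidableEq κ'] {D D' : ℕ}
  {c c' : ℝ}

lemma FC.mono (h : FC E D κ c) (hc : c ≤ c') : FC E D κ c' := fun J _ b S hD hb =>
  (h J b S hD hb).cost (by gcongr)

lemma FC.of_dvd (h : FC E D κ c) (hD : D ∣ D') : FC E D' κ c := fun J _ b S hD' hb =>
  h J b S (hD.trans hD') hb

lemma Fop_equiv (e : κ ≃ κ') (b : (κ' → ZMod 2) → E) (x : κ' → ZMod 2) :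
    Fop b x = Fop (fun y => b (y ∘ e.symm)) (x ∘ e) := by
  rw [Fop, Fop, ← Equiv.sum_comp (e.arrowCongr (Equiv.refl (ZMod 2)))]
  refine sum_congr rfl fun w _ => ?_
  congr 1
  · rw [← Equiv.prod_comp e]
    simp
  · congr 1
    ext p
    simp

lemma FC.equiv (h : FC E D κ c) (e : κ ≃ κ') : FC E D κ' c := fun J _ b S hD hb => by
  refine (h J (fun j y => b j (y ∘ e.symm)) S hD fun j => ?_).right ?_
  · rintro _ ⟨y, rfl⟩
    exact hb j ⟨_, rfl⟩
  · refine Set.iUnion_mono fun j => ?_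
    rintro _ ⟨x, rfl⟩
    exact ⟨_, (Fop_equiv e (b j) x).symm⟩

lemma Fop_option (b : (Option κ → ZMod 2) → E) (x : Option κ → ZMod 2) :
    Fop b x = ∑ c, gam c • Fop (fun y => b fun o => o.elim (x none + c) y) (fun p => x (some p)) := by
  rw [Fop, ← Equiv.sum_comp (Equiv.piOptionEquivProd (β := fun _ => ZMod 2)).symm,
    Fintype.sum_prod_type]
  refine sum_congr rfl fun c _ => ?_
  rw [Fop, smul_sum]
  refine sum_congr rfl fun w _ => ?_
  rw [smul_smul, Fintype.prod_option]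
  congr 2
  ext o
  rcases o with _ | p <;> simp

lemma FC.option (h : FC E (2 * D) κ c) :
    FC E D (Option κ) (2 * c + 2 * 2 ^ (Fintype.card κ + 1)) := fun J _ b S hD hb => by
  have h1 := h (J × ZMod 2) (fun j y => b j.1 fun o => o.elim j.2 y) S
    (by simpa [mul_comm] using Nat.mul_dvd_mul_left 2 hD) fun j => by
      rintro _ ⟨y, rfl⟩
      exact hb j.1 ⟨_, rfl⟩
  have h2 : Gen (⋃ j : J × ZMod 2, Set.range (Fop fun y => b j.1 fun o => o.elim j.2 y))
      (Fintype.card J * (Fintype.card (Option κ → ZMod 2) * 2)) (⋃ j, Set.range (Fop (b j))) := by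
    refine Gen.iUnion' fun j => Gen.range fun x => ?_
    rw [Fop_option]
    refine (Gen.sum univ gam _ fun c _ _ => ?_).cost (by simp)
    exact Set.mem_iUnion.2 ⟨(j, x none + c), fun p => x (some p), rfl⟩
  refine (h1.trans h2).cost (le_of_eq ?_)
  simp
  ring

lemma FC.zero : FC E D (Fin 0) 0 := fun J _ b S _ hb => by
  simp only [mul_zero]
  refine Gen.of_subset' (Set.iUnion_subset fun j => ?_)
  rintro _ ⟨x, rfl⟩
  exact hb j ⟨x + default, by simp [Fop]⟩

lemma FC.add_bits {k : ℕ} (r : ℕ) (h : FC E (2 ^ r * D) (Fin k) (2 ^ k * c)) :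
    FC E D (Fin (k + r)) (2 ^ (k + r) * (c + 2 * r)) := by
  induction r generalizing D with
  | zero => simpa using h
  | succ r ih =>
    have h1 := ih (D := 2 * D) (by rwa [← mul_assoc, ← pow_succ])
    refine (h1.option.equiv (finSuccEquiv (k + r)).symm).mono (le_of_eq ?_)
    simp only [Fintype.card_fin, ← add_assoc]
    push_cast
    ring

lemma FC.naive (k : ℕ) : FC E D (Fin k) (2 ^ k * (2 * k)) := by
  have := FC.add_bits (E := E) (D := D) (c := 0) (k := 0) k (by simpa using FC.zero)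
  simpa using this.equiv (finCongr (Nat.zero_add k))

lemma FC.batch {W : ℕ}
    (h : ∀ (b : Fin W → (κ → ZMod 2) → E) (S : Set E), (∀ j, Set.range (b j) ⊆ S) →
      Gen S (W * c) (⋃ j, Set.range (Fop (b j)))) : FC E W κ c := fun J _ b S hD hb => by
  obtain ⟨q, hq⟩ := hD
  let e : Fin q × Fin W ≃ J := Fintype.equivOfCardEq (by simp [hq, mul_comm])
  refine ((Gen.iUnion' fun i : Fin q => h (fun j => b (e (i, j))) S fun j => hb _).cost
    (le_of_eq ?_)).right (Set.iUnion_subset fun j => ?_)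
  · simp [hq]; ring
  · obtain ⟨⟨i, j'⟩, rfl⟩ := e.surjective j
    exact Set.subset_iUnion_of_subset i (Set.subset_iUnion_of_subset j' subset_rfl)

lemma FC.unit {ι : Type} [Fintype ι] [DecidableEq ι] (h : FC E D κ c) (hc : 0 ≤ c)
    (hD : D ∣ 2 ^ ((Fintype.card ι - 1) * Fintype.card κ)) :
    UnitCost ι κ E (2 ^ ((Fintype.card ι - 1) * Fintype.card κ) * c) := by
  intro z a
  rw [phi_rank]
  by_cases hz : ∀ i, (z i : ZMod 2) = 0
  · refine (Gen.of_subset' ?_).cost (by positivity)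
    rintro _ ⟨x, rfl⟩
    refine ⟨x, ?_⟩
    rw [Tm_sum]
    have : ∀ w : κ → ZMod 2, (x + fun p : ι × κ => (z p.1 : ZMod 2) * w p.2) = x := by
      intro w; ext p; simp [hz]
    simp only [this]
    rw [← sum_smul, ← Fintype.prod_sum (fun (_ : κ) c => gam c)]
    have : ∑ c, gam c = 1 := by rw [sum_zmod2]; simp [gam]; ring
    simp [this]
  push Not at hz
  obtain ⟨i₀, hi₀⟩ := hz
  have hz1 : (z i₀ : ZMod 2) = 1 := (zmod2_cases _).resolve_left hi₀
  have hcard : Fintype.card ({i // i ≠ i₀} × κ → ZMod 2) =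
      2 ^ ((Fintype.card ι - 1) * Fintype.card κ) := by
    simp [Fintype.card_subtype_compl]
  have h1 := h ({i // i ≠ i₀} × κ → ZMod 2)
    (fun ξ w => a fun p => (if hp : p.1 ≠ i₀ then ξ (⟨p.1, hp⟩, p.2) else 0) +
      (z p.1 : ZMod 2) * w p.2) (Set.range a) (hcard ▸ hD) fun ξ => by
        rintro _ ⟨w, rfl⟩
        exact ⟨_, rfl⟩
  rw [hcard] at h1
  push_cast at h1
  refine h1.right ?_
  rintro _ ⟨x, rfl⟩
  refine Set.mem_iUnion.2 ⟨fun p => x (p.1.1, p.2) - (z p.1.1 : ZMod 2) * x (i₀, p.2),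
    fun j => x (i₀, j), ?_⟩
  rw [Tm_sum, Fop]
  refine sum_congr rfl fun w _ => ?_
  congr 2
  ext p
  by_cases hp : p.1 = i₀
  · obtain ⟨i, j⟩ := p
    simp only at hp
    subst hp
    simp [hz1]
  · simp [hp]
    ring

end basic

lemma card_Tr : Fintype.card (Tr (Fin 100)) = 161700 := by
  rw [Fintype.card_finset_len, Fintype.card_fin]
  decide +kernel

lemma card_Nb : Fintype.card (Nb (Fin 100)) ≤ 161700 * 161700 := by
  refine (Fintype.card_subtype_le _).trans ?_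
  rw [Fintype.card_prod, card_Tr]

/-- The linear overhead of one recursion step. -/
noncomputable def K0 : ℝ :=
  3 * (Fintype.card (Tr (Fin 100)) : ℝ) ^ 2 * Kg (Fin 100) + (Fintype.card (Tr (Fin 100)) : ℝ) ^ 3

lemma K0_nonneg : 0 ≤ K0 := by unfold K0 Kg; positivity

lemma step_num (N : ℕ) (U Z : ℝ) (h1 : 0 ≤ U) (h2 : 0 ≤ Z) :
    (2 * ((161700 : ℕ) : ℝ) ^ 3 * (((100 : ℕ) : ℝ) ^ 3 - 1) + 3 * ((161700 : ℕ) : ℝ) ^ 2 *
      (N * ((100 : ℕ) : ℝ) ^ 3 + (((100 : ℕ) : ℝ) + 1) * ((100 : ℕ) : ℝ))) * U + Z +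
      (((2 ^ 71 : ℕ) : ℝ) - ((2 * 161700 ^ 3 + 3 * 161700 ^ 2 * N : ℕ) : ℝ)) *
        (((100 * (100 * 100) : ℕ) : ℝ) * U) ≤
      ((2 ^ 71 : ℕ) : ℝ) * ((10 ^ 6 - 6871402692000000 / 2 ^ 71) * U + Z) := by
  push_cast
  nlinarith

lemma FC.step {k : ℕ} {c : ℝ} (h : FC E (2 ^ 71) (Fin k) (2 ^ k * c)) (hc : 0 ≤ c) (hk : 1 ≤ k) :
    FC E (2 ^ 71) (Fin (10 ^ 6 * k))
      (2 ^ (10 ^ 6 * k) * ((10 ^ 6 - 6871402692000000 / 2 ^ 71) * c + K0)) := by
  have hU := h.unit (ι := Fin 100 × Fin 100 × Fin 100) (by positivity)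
    (pow_dvd_pow 2 (by simp; omega))
  have hUe : (2 : ℝ) ^ ((Fintype.card (Fin 100 × Fin 100 × Fin 100) - 1) * Fintype.card (Fin k)) *
      (2 ^ k * c) = 2 ^ (10 ^ 6 * k) * c := by
    rw [← mul_assoc, ← pow_add]
    congr 2
    simp
    omega
  rw [hUe] at hU
  set U := (2 : ℝ) ^ (10 ^ 6 * k) * c with hUdef
  refine FC.equiv (κ := (Fin 100 × Fin 100 × Fin 100) × Fin k) ?_
    (Fintype.equivFinOfCardEq (by simp))
  refine FC.batch fun b S hb => ?_
  let V := Tr (Fin 100)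
  let 𝒲 := ((V × V × V) ⊕ (V × V × V)) ⊕ ((V × V) × Nb (Fin 100)) ⊕ ((V × V) × Nb (Fin 100)) ⊕
    ((V × V) × Nb (Fin 100))
  have hN := card_Nb
  set N := Fintype.card (Nb (Fin 100)) with hNdef
  have hW : Fintype.card 𝒲 = 2 * 161700 ^ 3 + 3 * 161700 ^ 2 * N := by
    simp only [𝒲, V, Fintype.card_sum, Fintype.card_prod, card_Tr, ← hNdef]
    ring
  have hW' : Fintype.card 𝒲 ≤ 2 ^ 71 := by
    rw [hW]
    omega
  let e : 𝒲 ⊕ Fin (2 ^ 71 - Fintype.card 𝒲) ≃ Fin (2 ^ 71) :=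
    Fintype.equivOfCardEq (by simp only [Fintype.card_sum, Fintype.card_fin]; omega)
  obtain ⟨S1, g1, H1, H2, H3, H4, H5⟩ := gadget hU (by simp) (S0 := S)
    (fun s => b (e (.inl (.inl (.inl s))))) (fun s => b (e (.inl (.inl (.inr s)))))
    (fun s => b (e (.inl (.inr (.inl s))))) (fun s => b (e (.inl (.inr (.inr (.inl s))))))
    (fun s => b (e (.inl (.inr (.inr (.inr s)))))) (fun _ => hb _) (fun _ => hb _) (fun _ => hb _)
    (fun _ => hb _) (fun _ => hb _)
  have g2 := Gen.iUnion' fun i : Fin (2 ^ 71 - Fintype.card 𝒲) =>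
    (dec_one.sound hU (b (e (.inr i)))).left (hb _)
  refine ((g1.union g2).cost ?_).right (Set.iUnion_subset fun j => ?_)
  · have hg : gs (Fin 100 × Fin 100 × Fin 100) (Fin k) = 2 ^ (10 ^ 6 * k) := by
      simp [gs]
    have h1 : 0 ≤ U := by positivity
    have h2 : 0 ≤ K0 * 2 ^ (10 ^ 6 * k) := mul_nonneg K0_nonneg (by positivity)
    have h3 : (2 : ℝ) ^ (10 ^ 6 * k) * ((10 ^ 6 - 6871402692000000 / 2 ^ 71) * c + K0) =
        (10 ^ 6 - 6871402692000000 / 2 ^ 71) * U + K0 * 2 ^ (10 ^ 6 * k) := by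
      rw [hUdef]; ring
    rw [h3, ← K0, hg, Fintype.card_fin (2 ^ 71 - Fintype.card 𝒲), Nat.cast_sub hW', hW, card_Tr,
      ← hNdef]
    simp only [Fintype.card_prod, Fintype.card_fin]
    exact step_num _ _ _ h1 h2
  · obtain ⟨w, rfl⟩ := e.surjective j
    rcases w with ((s | s) | s | s | s) | i
    · exact (H1 s).trans Set.subset_union_left
    · exact (H2 s).trans Set.subset_union_left
    · exact (H3 s).trans Set.subset_union_left
    · exact (H4 s).trans Set.subset_union_left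
    · exact (H5 s).trans Set.subset_union_left
    · refine Set.subset_union_of_subset_right (Set.subset_iUnion_of_subset i ?_) _
      rw [← has_one]
      exact subset_rfl

lemma theta_spec : (10 ^ 6 : ℝ) ^ savingExponent = 10 ^ 6 - 6871402692000000 / 2 ^ 71 :=
  Real.rpow_logb (by norm_num) (by norm_num) (by norm_num)

lemma theta_nonneg : 0 ≤ savingExponent := Real.logb_nonneg (by norm_num) (by norm_num)

lemma theta_le_one : savingExponent ≤ 1 := by
  rw [savingExponent, Real.logb_le_iff_le_rpow (by norm_num) (by norm_num)]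
  norm_num

lemma FC.main_batch (K : ℕ) (hK : 1 ≤ K) : FC E (2 ^ 71) (Fin K)
    (2 ^ K * ((K0 + 4 * 10 ^ 6) * (K : ℝ) ^ savingExponent - (K0 + 2 * 10 ^ 6))) := by
  have hK0 := K0_nonneg
  induction K using Nat.strong_induction_on with
  | _ K ih =>
    have h1 : (1 : ℝ) ≤ (K : ℝ) ^ savingExponent :=
      Real.one_le_rpow (by exact_mod_cast hK) theta_nonneg
    by_cases hlt : K < 10 ^ 6
    · refine (FC.naive K).mono ?_
      have : (K : ℝ) ≤ 10 ^ 6 := by exact_mod_cast hlt.le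
      gcongr
      nlinarith
    · have hk : 1 ≤ K / 10 ^ 6 := by omega
      have h2 : (1 : ℝ) ≤ ((K / 10 ^ 6 : ℕ) : ℝ) ^ savingExponent :=
        Real.one_le_rpow (by exact_mod_cast hk) theta_nonneg
      have h3 := ((ih (K / 10 ^ 6) (by omega) hk).step (by nlinarith) hk).of_dvd
        (dvd_mul_left (2 ^ 71) (2 ^ (K % 10 ^ 6)))
      have h4 := (FC.add_bits _ h3).equiv (finCongr (Nat.div_add_mod K (10 ^ 6)))
      rw [Nat.div_add_mod] at h4
      refine h4.mono ?_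
      gcongr
      have h5 : (10 ^ 6 - 6871402692000000 / 2 ^ 71 : ℝ) *
          ((K / 10 ^ 6 : ℕ) : ℝ) ^ savingExponent ≤ (K : ℝ) ^ savingExponent := by
        rw [← theta_spec, ← Real.mul_rpow (by norm_num) (by positivity)]
        refine Real.rpow_le_rpow (by positivity) ?_ theta_nonneg
        exact_mod_cast Nat.mul_div_le K (10 ^ 6)
      have h6 : ((K % 10 ^ 6 : ℕ) : ℝ) ≤ 10 ^ 6 := by
        exact_mod_cast (Nat.mod_lt K (by norm_num)).le
      have h7 : (2 : ℝ) ≤ 10 ^ 6 - 6871402692000000 / 2 ^ 71 := by norm_num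
      revert h5 h6 h7
      generalize (10 ^ 6 - 6871402692000000 / 2 ^ 71 : ℝ) = l
      generalize ((K / 10 ^ 6 : ℕ) : ℝ) ^ savingExponent = x
      generalize ((K % 10 ^ 6 : ℕ) : ℝ) = r
      generalize (K : ℝ) ^ savingExponent = y
      intro h5 h6 h7
      nlinarith [mul_le_mul_of_nonneg_left h5 (show 0 ≤ K0 + 4 * 10 ^ 6 by positivity),
        mul_le_mul_of_nonneg_right h7 (show 0 ≤ K0 + 2 * 10 ^ 6 by positivity)]

/-- The constant in the bound for tensor powers. -/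
noncomputable def K1 : ℝ := K0 + 4 * 10 ^ 6 + 142

lemma K1_nonneg : 0 ≤ K1 := by have := K0_nonneg; unfold K1; positivity

theorem FC.main (κ : Type) [Fintype κ] [DecidableEq κ] : FC E 1 κ
    (2 ^ Fintype.card κ * (K1 * ((Fintype.card κ : ℝ) + 1) ^ savingExponent)) := by
  have hK0 := K0_nonneg
  refine FC.equiv ?_ (Fintype.equivFin κ).symm
  generalize Fintype.card κ = K
  have h1 : (1 : ℝ) ≤ ((K : ℝ) + 1) ^ savingExponent :=
    Real.one_le_rpow (by simp) theta_nonneg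
  by_cases hK : K ≤ 71
  · refine (FC.naive K).mono ?_
    have : (K : ℝ) ≤ 71 := by exact_mod_cast hK
    refine mul_le_mul_of_nonneg_left ?_ (by positivity)
    unfold K1
    nlinarith
  · obtain ⟨k, rfl⟩ : ∃ k, K = k + 71 := ⟨K - 71, by omega⟩
    refine (FC.add_bits 71 (by simpa using FC.main_batch k (by omega))).mono ?_
    have h2 : (k : ℝ) ^ savingExponent ≤ (((k + 71 : ℕ) : ℝ) + 1) ^ savingExponent :=
      Real.rpow_le_rpow (by positivity) (by push_cast; linarith) theta_nonneg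
    gcongr
    unfold K1
    push_cast at *
    nlinarith

end Crest.Agent.H0324
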