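import Crest.Agent.H0324.Frame

set_option autoImplicit false

namespace Crest.Agent.H0324

open Finset Matrix

section defs
variable {α β γ : Type*}

/-- A matrix with at most one nonzero entry in each row. -/
def mono [DecidableEq β] (d : α → ℂ) (π : α → β) : Matrix α β ℂ :=
  Matrix.of fun x y => if y = π x then d x else 0

lemma mono_mul [Fintype β] [DecidableEq β] (d : α → ℂ) (π : α → β) (M : Matrix β γ ℂ) :
    mono d π * M = Matrix.of fun x y => d x * M (π x) y := by
  ext x y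
  simp [mono, mul_apply]

lemma mono_mul_mono [Fintype β] [DecidableEq β] [DecidableEq γ] (d : α → ℂ) (π : α → β)
    (d' : β → ℂ) (π' : β → γ) :
    mono d π * mono d' π' = mono (fun x => d x * d' (π x)) (fun x => π' (π x)) := by
  rw [mono_mul]
  ext x y
  simp [mono]

lemma mono_id [DecidableEq α] (d : α → ℂ) : mono d id = diagonal d := by
  ext x y
  simp [mono, diagonal_apply, eq_comm]

/-- A layer of square roots of swaps. -/
noncomputable def Cm [DecidableEq α] (σ : α → α) : Matrix α α ℂ :=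
  gam 0 • mono (fun _ => 1) id + gam 1 • mono (fun _ => 1) σ

lemma gam_add : gam 0 + gam 1 = 1 := by simp [gam]; ring

lemma Cm_id [DecidableEq α] : Cm (id : α → α) = 1 := by
  rw [Cm, ← add_smul, gam_add, one_smul, mono_id, diagonal_one]

end defs

variable {α β γ : Type*} [Fintype α] [DecidableEq α] [Fintype β] [DecidableEq β]
  [Fintype γ] [DecidableEq γ]

/-- In-place words with `L` layers. -/
inductive Wd : ℕ → Matrix α α ℂ → Prop
  | base (d : α → ℂ) (π : α → α) : Wd 0 (mono d π)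
  | step (d : α → ℂ) (π σ : α → α) (hσ : Function.Involutive σ) {L : ℕ} {M : Matrix α α ℂ} :
      Wd L M → Wd (L + 1) (mono d π * Cm σ * M)

lemma Wd.of_eq {L L' : ℕ} {M M' : Matrix α α ℂ} (h : Wd L M) (hL : L = L') (hM : M = M') :
    Wd L' M' := hL ▸ hM ▸ h

lemma Wd.inv_zero {M : Matrix α α ℂ} (h : Wd 0 M) : ∃ d π, M = mono d π := by
  cases h with
  | base d π => exact ⟨d, π, rfl⟩

lemma Wd.inv_succ {L : ℕ} {M : Matrix α α ℂ} (h : Wd (L + 1) M) :
    ∃ d π σ M', Function.Involutive σ ∧ Wd L M' ∧ M = mono d π * Cm σ * M' := by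
  cases h with
  | step d π σ hσ h => exact ⟨d, π, σ, _, hσ, h, rfl⟩

lemma Wd.diag (d : α → ℂ) : Wd 0 (diagonal d) := (Wd.base d id).of_eq rfl (mono_id d)

lemma Wd.one : Wd 0 (1 : Matrix α α ℂ) := Wd.diag _

lemma Wd.mono_left {L : ℕ} {M : Matrix α α ℂ} (h : Wd L M) (d : α → ℂ) (π : α → α) :
    Wd L (mono d π * M) := by
  cases h with
  | base d' π' => rw [mono_mul_mono]; exact Wd.base _ _
  | step d' π' σ hσ h =>
    rw [← Matrix.mul_assoc, ← Matrix.mul_assoc, mono_mul_mono]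
    exact Wd.step _ _ _ hσ h

lemma Wd.mul {L L' : ℕ} {M M' : Matrix α α ℂ} (h : Wd L M) (h' : Wd L' M') :
    Wd (L + L') (M * M') := by
  induction h with
  | base d π => simpa using h'.mono_left d π
  | step d π σ hσ _ ih =>
    exact (Wd.step d π σ hσ ih).of_eq (by ring) (by simp only [Matrix.mul_assoc])

lemma Wd.cm {σ : α → α} (hσ : Function.Involutive σ) : Wd 1 (Cm σ) :=
  (Wd.step (fun _ => 1) id σ hσ Wd.one).of_eq rfl (by simp [mono_id])

lemma Wd.le {L L' : ℕ} {M : Matrix α α ℂ} (h : Wd L M) (hL : L ≤ L') : Wd L' M := by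
  induction hL with
  | refl => exact h
  | step _ ih =>
    exact (ih.mul (Wd.cm (σ := id) fun _ => rfl)).of_eq rfl (by rw [Cm_id, Matrix.mul_one])

omit [Fintype α] [Fintype β] in
lemma mono_sum (d : α → ℂ) (π : α → α) (d' : β → ℂ) (π' : β → β) :
    fromBlocks (mono d π) 0 0 (mono d' π') = mono (Sum.elim d d') (Sum.map π π') := by
  ext (x | x) (y | y) <;> simp [mono]

omit [Fintype α] [Fintype β] in
lemma Cm_sum (σ : α → α) (σ' : β → β) :
    fromBlocks (Cm σ) 0 0 (Cm σ') = Cm (Sum.map σ σ') := by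
  ext (x | x) (y | y) <;> simp [Cm, mono]

lemma Wd.sum {L : ℕ} {M : Matrix α α ℂ} {M' : Matrix β β ℂ} (h : Wd L M) (h' : Wd L M') :
    Wd L (fromBlocks M 0 0 M') := by
  induction h generalizing M' with
  | base d π =>
    obtain ⟨d', π', rfl⟩ := h'.inv_zero
    rw [mono_sum]
    exact Wd.base _ _
  | step d π σ hσ _ ih =>
    obtain ⟨d', π', σ', N, hσ', hN, rfl⟩ := h'.inv_succ
    refine (Wd.step (Sum.elim d d') (Sum.map π π') (Sum.map σ σ') ?_ (ih hN)).of_eq rfl ?_
    · rintro (x | x)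
      · simp [hσ x]
      · simp [hσ' x]
    · rw [← mono_sum, ← Cm_sum]
      simp [fromBlocks_multiply]

lemma Wd.submatrix {L : ℕ} {M : Matrix α α ℂ} (h : Wd L M) (e : β ≃ α) :
    Wd L (M.submatrix e e) := by
  have hm : ∀ (d : α → ℂ) (π : α → α), (mono d π).submatrix e e =
      mono (fun x => d (e x)) (fun x => e.symm (π (e x))) := by
    intro d π
    ext x y
    simp [mono, Equiv.eq_symm_apply]
  induction h with
  | base d π => rw [hm]; exact Wd.base _ _
  | step d π σ hσ _ ih =>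
    refine (Wd.step (fun x => d (e x)) (fun x => e.symm (π (e x))) (fun x => e.symm (σ (e x)))
      (fun x => by simp [hσ (e x)]) ih).of_eq rfl ?_
    rw [← submatrix_mul_equiv _ _ e e e, ← submatrix_mul_equiv _ _ e e e, hm]
    congr 2
    ext x y
    simp [Cm, mono, Equiv.eq_symm_apply]

lemma Wd.of_submatrix {L : ℕ} {M : Matrix α α ℂ} (e e' : β ≃ α) (h : Wd L (M.submatrix e e')) :
    Wd L M := by
  refine ((h.submatrix e'.symm).mono_left (fun _ => 1) (fun x => e' (e.symm x))).of_eq rfl ?_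
  rw [mono_mul]
  ext x y
  simp

/-- Blocks of diagonal matrices. -/
def B2 (p q r s : β → ℂ) : Matrix (β ⊕ β) (β ⊕ β) ℂ :=
  fromBlocks (diagonal p) (diagonal q) (diagonal r) (diagonal s)

lemma B2_mul (p q r s p' q' r' s' : β → ℂ) : B2 p q r s * B2 p' q' r' s' =
    B2 (p * p' + q * r') (p * q' + q * s') (r * p' + s * r') (r * q' + s * s') := by
  simp [B2, fromBlocks_multiply]

lemma wd_B2_diag (a b : β → ℂ) : Wd 0 (B2 a 0 0 b) := by
  refine (Wd.diag (Sum.elim a b)).of_eq rfl ?_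
  rw [B2, ← fromBlocks_diagonal]
  congr 1 <;> exact diagonal_zero.symm

omit [Fintype β] in
lemma B2_congr {p q r s p' q' r' s' : β → ℂ} (h1 : ∀ x, p x = p' x) (h2 : ∀ x, q x = q' x)
    (h3 : ∀ x, r x = r' x) (h4 : ∀ x, s x = s' x) : B2 p q r s = B2 p' q' r' s' := by
  rw [funext h1, funext h2, funext h3, funext h4]

lemma wd_B2_H : Wd 1 (B2 (1 : β → ℂ) 1 1 (-1)) := by
  have h1 : Cm (Sum.swap : β ⊕ β → β ⊕ β) =
      B2 (fun _ => gam 0) (fun _ => gam 1) (fun _ => gam 1) (fun _ => gam 0) := by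
    ext (x | x) (y | y) <;> simp [Cm, mono, B2, diagonal_apply, eq_comm]
  have h2 := ((wd_B2_diag (fun _ : β => 1 - Complex.I) (fun _ => 1 + Complex.I)).mul
    (Wd.cm (σ := Sum.swap) Sum.swap_swap)).mul (wd_B2_diag 1 (fun _ => Complex.I))
  refine h2.of_eq rfl ?_
  rw [h1, B2_mul, B2_mul]
  refine B2_congr ?_ ?_ ?_ ?_ <;> intro x <;> simp [gam] <;> ring_nf <;> simp <;> ring_nf

lemma wd_shear_ne (c : β → ℂ) (hc : ∀ x, c x ≠ 0) : Wd 3 (B2 1 0 c 1) := by
  have h := (((((wd_B2_diag (fun x => 5 / (12 * c x)) (fun _ => 1 / 3)).mul wd_B2_H).mul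
    (wd_B2_diag (fun _ => 3 / 2) (fun _ => -1 / 2))).mul wd_B2_H).mul
    (wd_B2_diag (fun _ => 2) 1)).mul (wd_B2_H.mul (wd_B2_diag (fun x => 3 * c x / 5) 1))
  refine h.of_eq rfl ?_
  simp only [B2_mul]
  refine B2_congr ?_ ?_ ?_ ?_ <;> intro x <;> have := hc x <;> simp <;> field_simp <;> ring

lemma wd_shear (c : β → ℂ) : Wd 6 (B2 1 0 c 1) := by
  classical
  have h := (wd_shear_ne (fun x => if c x = 1 then 2 else 1)
    (fun x => by split_ifs <;> norm_num)).mul
    (wd_shear_ne (fun x => c x - if c x = 1 then 2 else 1) (fun x => by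
      split_ifs with h
      · rw [h]; norm_num
      · exact sub_ne_zero.2 h))
  refine h.of_eq rfl ?_
  rw [B2_mul]
  refine B2_congr ?_ ?_ ?_ ?_ <;> intro x <;> simp

/-- The placement matrix of a map. -/
def Pm {α β : Type*} [DecidableEq α] (f : β → α) : Matrix α β ℂ :=
  Matrix.of fun x b => if x = f b then 1 else 0

omit [Fintype β] [DecidableEq β] [Fintype γ] [DecidableEq γ] in
lemma Pm_t_mul (f : β → α) (M : Matrix α γ ℂ) : (Pm f)ᵀ * M = M.submatrix f id := by
  ext b c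
  simp [Pm, mul_apply]

omit [Fintype β] [DecidableEq β] [Fintype γ] [DecidableEq γ] in
lemma mul_Pm (f : β → α) (M : Matrix γ α ℂ) : M * Pm f = M.submatrix id f := by
  ext b c
  simp [Pm, mul_apply]

omit [Fintype β] in
lemma Pm_t_Pm {f : β → α} (hf : Function.Injective f) : (Pm f)ᵀ * Pm f = 1 := by
  rw [Pm_t_mul]
  ext b c
  simp [Pm, one_apply, hf.eq_iff]

omit [Fintype β] [DecidableEq β] [Fintype γ] [DecidableEq γ] in
lemma Pm_t_Pm_ne {f : β → α} {g : γ → α} (h : ∀ b c, f b ≠ g c) : (Pm f)ᵀ * Pm g = 0 := by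
  rw [Pm_t_mul]
  ext b c
  simp [Pm, h]

omit [Fintype α] [Fintype γ] [DecidableEq γ] in
lemma Pm_comp (f : β → α) (g : γ → β) : Pm (fun c => f (g c)) = Pm f * Pm g := by
  rw [mul_Pm]
  rfl

lemma Wd.ext {L : ℕ} {M : Matrix β β ℂ} (h : Wd L M) {f : β → α} (hf : Function.Injective f) :
    Wd L (1 + Pm f * (M - 1) * (Pm f)ᵀ) := by
  classical
  let e : β ⊕ {x // x ∉ Set.range f} ≃ α :=
    (Equiv.sumCongr (Equiv.ofInjective f hf) (Equiv.refl _)).trans
      (Equiv.sumCompl (· ∈ Set.range f))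
  refine Wd.of_submatrix e e ((h.sum (Wd.one.le (Nat.zero_le L))).of_eq rfl ?_)
  have h1 : (Pm f).submatrix e id = fromRows 1 0 := by
    ext (b | x) c
    · simp [e, Pm, one_apply, hf.eq_iff]
    · have : x.1 ≠ f c := fun h => x.2 ⟨c, h.symm⟩
      simp [e, Pm, this]
  rw [submatrix_add, Pi.add_apply, Pi.add_apply, submatrix_one_equiv,
    ← submatrix_mul_equiv _ _ _ (Equiv.refl β), ← submatrix_mul_equiv _ _ _ (Equiv.refl β),
    Equiv.coe_refl, h1, ← transpose_submatrix, h1, transpose_fromRows, fromRows_mul,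
    fromRows_mul_fromCols, ← fromBlocks_one, fromBlocks_add]
  simp

/-- Shears: both `1 + A` and `1 - A` are words. -/
def Sh (L : ℕ) (A : Matrix α α ℂ) : Prop := Wd L (1 + A) ∧ Wd L (1 - A)

lemma Sh.le {L L' : ℕ} {A : Matrix α α ℂ} (h : Sh L A) (hL : L ≤ L') : Sh L' A :=
  ⟨h.1.le hL, h.2.le hL⟩

lemma Sh.zero (L : ℕ) : Sh L (0 : Matrix α α ℂ) :=
  ⟨by simpa using Wd.one.le (Nat.zero_le L), by simpa using Wd.one.le (Nat.zero_le L)⟩

lemma Sh.comm {L : ℕ} {A B : Matrix α α ℂ} (hA : Sh L A) (hB : Sh L B) (h1 : A * A = 0)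
    (h2 : B * B = 0) (h3 : B * A = 0) : Sh (4 * L) (A * B) := by
  constructor
  · refine (((hA.2.mul hB.2).mul hA.1).mul hB.1).of_eq (by ring) ?_
    simp only [mul_add, add_mul, mul_sub, sub_mul, mul_one, one_mul, mul_assoc, h1, h2, h3,
      mul_zero, zero_mul]
    abel
  · refine (((hA.1.mul hB.2).mul hA.2).mul hB.1).of_eq (by ring) ?_
    simp only [mul_add, add_mul, mul_sub, sub_mul, mul_one, one_mul, mul_assoc, h1, h2, h3,
      mul_zero, zero_mul]
    abel

lemma Sh.add {L L' : ℕ} {A B : Matrix α α ℂ} (hA : Sh L A) (hB : Sh L' B) (h : A * B = 0) :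
    Sh (L + L') (A + B) := by
  constructor
  · refine (hA.1.mul hB.1).of_eq rfl ?_
    simp only [mul_add, add_mul, mul_one, one_mul, h]
    abel
  · refine (hA.2.mul hB.2).of_eq rfl ?_
    simp only [mul_sub, sub_mul, mul_one, one_mul, h]
    abel

lemma Sh.sum {ι : Type*} (s : Finset ι) {L : ℕ} {A : ι → Matrix α α ℂ} (hA : ∀ i, Sh L (A i))
    (h : ∀ i j, A i * A j = 0) : Sh (#s * L) (∑ i ∈ s, A i) := by
  classical
  induction s using Finset.induction_on with
  | empty => simpa using Sh.zero 0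
  | insert a s ha ih =>
    rw [sum_insert ha, card_insert_of_notMem ha]
    exact ((hA a).add ih (by simp [Finset.mul_sum, h])).le (le_of_eq (by ring))

lemma Sh.conj {L L' : ℕ} {A U U' : Matrix α α ℂ} (hA : Sh L' A) (hU : Wd L U) (hU' : Wd L U')
    (h : U' * U = 1) : Sh (L + L' + L) (U' * A * U) := by
  constructor
  · exact ((hU'.mul hA.1).mul hU).of_eq rfl (by simp [mul_add, add_mul, h])
  · exact ((hU'.mul hA.2).mul hU).of_eq rfl (by simp [mul_sub, sub_mul, h])

lemma Sh.matching {f g : β → α} (hf : Function.Injective f) (hg : Function.Injective g)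
    (hfg : ∀ b c, f b ≠ g c) (c : β → ℂ) : Sh 6 (Pm f * diagonal c * (Pm g)ᵀ) := by
  have hi : Function.Injective (Sum.elim g f) := hg.sumElim hf fun a b => (hfg b a).symm
  have h1 : Pm (Sum.elim g f) = fromCols (Pm g) (Pm f) := by
    ext x (b | b) <;> rfl
  have key : ∀ c : β → ℂ, Wd 6 (1 + Pm f * diagonal c * (Pm g)ᵀ) := by
    intro c
    refine ((wd_shear c).ext hi).of_eq rfl ?_
    have h2 : B2 1 0 c 1 - 1 = fromBlocks 0 0 (diagonal c) 0 := by
      ext (x | x) (y | y) <;> simp [B2, one_apply, diagonal_apply]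
    rw [h1, h2, transpose_fromCols, fromCols_mul_fromBlocks, fromCols_mul_fromRows]
    simp
  refine ⟨key c, (key (-c)).of_eq rfl ?_⟩
  have h3 : diagonal (-c) = -diagonal c := (diagonal_neg c).symm
  rw [h3, Matrix.mul_neg, Matrix.neg_mul, sub_eq_add_neg]

lemma Sh.small (P : α → Prop) (A : Matrix α α ℂ) (h : ∀ x y, A x y ≠ 0 → ¬ P x ∧ P y) :
    Sh (Fintype.card α * Fintype.card α * 6) A := by
  have := Sh.sum (univ : Finset (α × α)) (L := 6) (A := fun p => single p.1 p.2 (A p.1 p.2))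
    (fun p => ?_) (fun p q => ?_)
  · rwa [card_univ, Fintype.card_prod, Fintype.sum_prod_type, ← matrix_eq_sum_single] at this
  · by_cases h0 : A p.1 p.2 = 0
    · simpa [h0] using Sh.zero 6
    · have hne : p.1 ≠ p.2 := fun he => (h _ _ h0).1 (he ▸ (h _ _ h0).2)
      convert Sh.matching (f := fun _ : Unit => p.1) (g := fun _ => p.2)
        (fun _ _ _ => rfl) (fun _ _ _ => rfl) (fun _ _ => hne) (fun _ => A p.1 p.2)
      ext x y
      simp [Pm, mul_apply, single, ite_and, eq_comm]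
      split_ifs <;> rfl
  · by_cases h0 : A p.1 p.2 = 0
    · simp [h0]
    · by_cases h1 : A q.1 q.2 = 0
      · simp [h1]
      · exact single_mul_single_of_ne _ _ _ _ (fun he : p.2 = q.1 => (h _ _ h1).1 (he ▸ (h _ _ h0).2)) _

end Crest.Agent.H0324
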