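import Crest.Agent.H0324.Rec
import Crest.Agent.H0324.Word

set_option autoImplicit false

namespace Crest.Agent.H0324

open Finset Matrix Crest.FourierCircuit

variable {E : Type*} [AddCommGroup E] [Module ℂ E]

section cost
variable {A : Type*} [Fintype A]

/-- The action of a matrix on an array of values. -/
def app (M : Matrix A A ℂ) (a : A → E) : A → E := fun x => ∑ y, M x y • a y

lemma app_mul (M N : Matrix A A ℂ) (a : A → E) : app (M * N) a = app M (app N a) := by
  funext x
  simp only [app, mul_apply, sum_smul, smul_sum, smul_smul]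
  exact sum_comm

/-- The cost of applying a matrix. -/
def Cost (E : Type*) [AddCommGroup E] [Module ℂ E] (M : Matrix A A ℂ) (c : ℝ) : Prop :=
  ∀ a : A → E, Gen (Set.range a) c (Set.range (app M a))

lemma Cost.mul {M N : Matrix A A ℂ} {c c' : ℝ} (h : Cost E M c) (h' : Cost E N c') :
    Cost E (M * N) (c + c') := fun a => by
  rw [app_mul, add_comm]
  exact (h' a).trans (h _)

lemma Cost.mono [DecidableEq A] (d : A → ℂ) (π : A → A) :
    Cost E (mono d π) (Fintype.card A) := fun a => by
  have := Gen.range (S := Set.range a) (f := app (H0324.mono d π) a) (c := 1) fun x => by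
    have h : app (H0324.mono d π) a x = d x • a (π x) := by simp [app, H0324.mono]
    rw [h]
    exact Gen.smul _ ⟨_, rfl⟩
  simpa using this

end cost

variable {J : Type} [Fintype J] [DecidableEq J] {α : J → Type} [∀ j, Fintype (α j)]
  [∀ j, DecidableEq (α j)]

/-- The tensor product of a family of matrices. -/
def Ten (M : ∀ j, Matrix (α j) (α j) ℂ) : Matrix (∀ j, α j) (∀ j, α j) ℂ :=
  of fun x y => ∏ j, M j (x j) (y j)

omit [∀ j, DecidableEq (α j)] in
lemma Ten_mul (M N : ∀ j, Matrix (α j) (α j) ℂ) : Ten (fun j => M j * N j) = Ten M * Ten N := by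
  ext x y
  simp only [Ten, mul_apply, of_apply, ← prod_mul_distrib]
  exact Fintype.prod_sum (fun j z => M j (x j) z * N j z (y j))

omit [DecidableEq J] [∀ j, Fintype (α j)] in
lemma Ten_mono (d : ∀ j, α j → ℂ) (π : ∀ j, α j → α j) :
    Ten (fun j => mono (d j) (π j)) = mono (fun x => ∏ j, d j (x j)) (fun x j => π j (x j)) := by
  ext x y
  simp only [Ten, mono, of_apply, funext_iff]
  split_ifs with h
  · simp [h]
  · obtain ⟨j, hj⟩ := not_forall.1 h
    exact prod_eq_zero (mem_univ j) (by simp [hj])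

/-- The points of the orbit of `ρ`. -/
def pt (σ : ∀ j, α j → α j) (ρ : ∀ j, α j) (w : {j // σ j (ρ j) ≠ ρ j} → ZMod 2) : ∀ j, α j :=
  fun j => if h : σ j (ρ j) ≠ ρ j then (if w ⟨j, h⟩ = 0 then ρ j else σ j (ρ j)) else ρ j

lemma app_Cm {σ : ∀ j, α j → α j} (hσ : ∀ j, Function.Involutive (σ j)) (ρ : ∀ j, α j)
    (a : (∀ j, α j) → E) (v : {j // σ j (ρ j) ≠ ρ j} → ZMod 2) :
    app (Ten fun j => Cm (σ j)) a (pt σ ρ v) = Fop (fun w => a (pt σ ρ w)) v := by
  have h11 : (1 : ZMod 2) + 1 = 0 := rfl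
  have key : ∀ y, (Ten fun j => Cm (σ j)) (pt σ ρ v) y =
      ∑ w : {j // σ j (ρ j) ≠ ρ j} → ZMod 2, (∏ p, gam (w p)) *
        if y = pt σ ρ (v + w) then 1 else 0 := by
    intro y
    have h1 : ∀ w : {j // σ j (ρ j) ≠ ρ j} → ZMod 2,
        (if y = pt σ ρ (v + w) then (1 : ℂ) else 0) =
        (∏ p : {j // σ j (ρ j) ≠ ρ j},
          if y p = (if v p + w p = 0 then ρ p else σ p (ρ p)) then 1 else 0) *
        ∏ p : {j // ¬ σ j (ρ j) ≠ ρ j}, if y p = ρ p then 1 else 0 := by
      intro w
      have h2 : (if y = pt σ ρ (v + w) then (1 : ℂ) else 0) =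
          ∏ j, if y j = pt σ ρ (v + w) j then 1 else 0 := by
        rw [Fintype.prod_boole]
        simp only [funext_iff]
      rw [h2, ← Fintype.prod_subtype_mul_prod_subtype (fun j => σ j (ρ j) ≠ ρ j)]
      congr 1
      · exact prod_congr rfl fun p _ => by rw [pt, dif_pos p.2]; rfl
      · exact prod_congr rfl fun p _ => by rw [pt, dif_neg p.2]
    simp only [h1, ← mul_assoc, ← prod_mul_distrib, ← sum_mul]
    rw [← Fintype.prod_sum (fun (p : {j // σ j (ρ j) ≠ ρ j}) (c : ZMod 2) => gam c *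
      if y p = (if v p + c = 0 then ρ p else σ p (ρ p)) then 1 else 0), Ten, of_apply,
      ← Fintype.prod_subtype_mul_prod_subtype (fun j => σ j (ρ j) ≠ ρ j)]
    congr 1
    · refine prod_congr rfl fun p _ => ?_
      rw [pt, dif_pos p.2, sum_zmod2]
      rcases zmod2_cases (v p) with h | h <;> simp [h, Cm, mono, h11, hσ p (ρ p)]
    · refine prod_congr rfl fun p _ => ?_
      have h3 := not_not.1 p.2
      rw [pt, dif_neg p.2]
      simp only [Cm, mono, Matrix.add_apply, Matrix.smul_apply, of_apply, id, h3, smul_eq_mul]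
      rw [← add_mul, gam_add, one_mul]
  simp only [app, key, sum_smul, Fop]
  rw [sum_comm]
  simp

lemma cost_Cm {σ : ∀ j, α j → α j} (hσ : ∀ j, Function.Involutive (σ j)) :
    Cost E (Ten fun j => Cm (σ j))
      (Fintype.card (∀ j, α j) * (K1 * ((Fintype.card J : ℝ) + 1) ^ savingExponent)) := by
  intro a
  have hr : ∀ j, ∃ r : α j → α j, ∀ x, r (σ j x) = r x ∧ (r x = x ∨ r x = σ j x) := by
    intro j
    let e := Fintype.equivFin (α j)
    refine ⟨fun x => if e x ≤ e (σ j x) then x else σ j x, fun x => ⟨?_, ?_⟩⟩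
    · simp only [hσ j x]
      split_ifs with h1 h2 h2
      · exact e.injective (le_antisymm h1 h2)
      · rfl
      · rfl
      · omega
    · dsimp only
      split_ifs <;> simp
  choose r hr using hr
  have h1 : ∀ (ρ : ∀ j, α j) w j, r j (pt σ ρ w j) = r j (ρ j) := by
    intro ρ w j
    rw [pt]
    split_ifs <;> simp [(hr _ _).1]
  let R := {ρ : ∀ j, α j // ∀ j, r j (ρ j) = ρ j}
  have h2 : ∑ ρ : R, 2 ^ Fintype.card {j // σ j (ρ.1 j) ≠ ρ.1 j} ≤ Fintype.card (∀ j, α j) := by
    have := Fintype.card_le_of_injective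
      (fun p : Σ ρ : R, ({j // σ j (ρ.1 j) ≠ ρ.1 j} → ZMod 2) => pt σ p.1.1 p.2) (by
        rintro ⟨⟨ρ, hρ⟩, w⟩ ⟨⟨ρ', hρ'⟩, w'⟩ h
        dsimp only at h
        obtain rfl : ρ = ρ' := funext fun j => by rw [← hρ j, ← hρ' j, ← h1 ρ w, h, h1]
        obtain rfl : w = w' := by
          funext p
          have h3 := congrFun h p
          have h4 := p.2
          simp only [pt, dif_pos p.2] at h3
          rcases zmod2_cases (w p) with h5 | h5 <;> rcases zmod2_cases (w' p) with h6 | h6
          · rw [h5, h6]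
          · exact absurd (by simpa [h5, h6] using h3.symm) h4
          · exact absurd (by simpa [h5, h6] using h3) h4
          · rw [h5, h6]
        rfl)
    simpa using this
  have h3 := Gen.iUnion (S := Set.range a) fun ρ : R =>
    FC.main (E := E) {j // σ j (ρ.1 j) ≠ ρ.1 j} Unit (fun _ w => a (pt σ ρ.1 w)) (Set.range a)
      (one_dvd _) (fun _ => by rintro _ ⟨w, rfl⟩; exact ⟨_, rfl⟩)
  refine (h3.right ?_).cost ?_
  · rintro _ ⟨x, rfl⟩
    have h4 : ∀ j, r j (r j (x j)) = r j (x j) := fun j => by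
      rcases (hr j (x j)).2 with h | h
      · rw [h, h]
      · rw [h, (hr j _).1, h]
    refine Set.mem_iUnion.2 ⟨⟨fun j => r j (x j), h4⟩, Set.mem_iUnion.2 ⟨(),
      fun p => if x p = r p (x p) then 0 else 1, ?_⟩⟩
    rw [← app_Cm hσ]
    congr 1
    funext j
    have h5 := hσ j (x j)
    rcases (hr j (x j)).2 with h | h
    · simp [pt, h]
    · by_cases h6 : x j = σ j (x j)
      · simp [pt, h, ← h6]
      · simp [pt, h, h5, h6]
  · have hK := K1_nonneg
    have h4 : ((∑ ρ : R, 2 ^ Fintype.card {j // σ j (ρ.1 j) ≠ ρ.1 j} : ℕ) : ℝ) ≤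
        Fintype.card (∀ j, α j) := by exact_mod_cast h2
    refine le_trans ?_ (mul_le_mul_of_nonneg_right h4 (by positivity))
    push_cast
    rw [sum_mul]
    refine sum_le_sum fun ρ _ => ?_
    have h5 : (Fintype.card {j // σ j (ρ.1 j) ≠ ρ.1 j} : ℝ) ≤ Fintype.card J := by
      exact_mod_cast Fintype.card_subtype_le _
    have := theta_nonneg
    rw [Fintype.card_unit, Nat.cast_one, one_mul]
    gcongr

theorem cost_Ten (L : ℕ) (M : ∀ j, Matrix (α j) (α j) ℂ) (h : ∀ j, Wd L (M j)) :
    Cost E (Ten M) ((L + 1) * (Fintype.card (∀ j, α j) *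
      (K1 * ((Fintype.card J : ℝ) + 1) ^ savingExponent + 1))) := by
  have hK := K1_nonneg
  induction L generalizing M with
  | zero =>
    choose d π hM using fun j => (h j).inv_zero
    rw [funext hM, Ten_mono]
    refine fun a => (Cost.mono _ _ a).cost ?_
    have : 0 ≤ (Fintype.card (∀ j, α j) : ℝ) *
      (K1 * ((Fintype.card J : ℝ) + 1) ^ savingExponent) := by positivity
    push_cast
    linarith
  | succ L ih =>
    choose d π σ M' h1 h2 hM using fun j => (h j).inv_succ
    rw [funext hM, Ten_mul, Ten_mul, Ten_mono]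
    refine fun a => ((((Cost.mono _ _).mul (cost_Cm h1)).mul (ih M' h2)) a).cost ?_
    push_cast
    exact le_of_eq (by ring)

end Crest.Agent.H0324
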