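import Crest.Agent.H0324.Word

set_option autoImplicit false

namespace Crest.Agent.H0324

open Finset Matrix

variable {α β γ : Type*} [Fintype α] [DecidableEq α] [Fintype β] [DecidableEq β]
  [Fintype γ] [DecidableEq γ]

lemma Wd.exists (M : Matrix α α ℂ) : ∃ L, Wd L M := by
  induction M using Matrix.diagonal_transvection_induction with
  | hdiag D _ => exact ⟨0, Wd.diag D⟩
  | htransvec t =>
    refine ⟨_, (Sh.small (fun x => x = t.j) (single t.i t.j t.c) ?_).1⟩
    intro x y h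
    simp only [single, of_apply, ne_eq, ite_eq_right_iff, Classical.not_imp] at h
    obtain ⟨⟨rfl, rfl⟩, -⟩ := h
    exact ⟨t.hij, rfl⟩
  | hmul A B hA hB =>
    obtain ⟨L, hL⟩ := hA
    obtain ⟨L', hL'⟩ := hB
    exact ⟨_, hL.mul hL'⟩

lemma Wd.blockDiag {L : ℕ} {M : Matrix α α ℂ} (h : Wd L M) (γ : Type*) [Fintype γ]
    [DecidableEq γ] : Wd L (blockDiagonal fun _ : γ => M) := by
  have hm : ∀ (d : α → ℂ) (π : α → α), (blockDiagonal fun _ : γ => mono d π) =
      mono (fun x => d x.1) (Prod.map π id) := by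
    intro d π
    ext ⟨x, c⟩ ⟨y, c'⟩
    by_cases h : c = c' <;> simp [mono, blockDiagonal_apply, h, eq_comm]
  induction h with
  | base d π => rw [hm]; exact Wd.base _ _
  | step d π σ hσ _ ih =>
    refine (Wd.step (fun x => d x.1) (Prod.map π id) (Prod.map σ id)
      (fun x => by simp [Prod.map, hσ x.1]) ih).of_eq rfl ?_
    rw [blockDiagonal_mul, blockDiagonal_mul, hm]
    congr 2
    ext ⟨x, c⟩ ⟨y, c'⟩
    by_cases h : c = c' <;> simp [Cm, mono, blockDiagonal_apply, h, eq_comm]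

lemma Wd.pad {δ : Type*} [Fintype δ] [DecidableEq δ] {L : ℕ} {M : Matrix β β ℂ}
    (h : Wd L (fromBlocks M 0 0 (1 : Matrix γ γ ℂ))) (hc : Fintype.card γ ≤ Fintype.card δ) :
    Wd L (fromBlocks M 0 0 (1 : Matrix δ δ ℂ)) := by
  obtain ⟨g⟩ := Function.Embedding.nonempty_of_card_le hc
  refine (h.ext (f := Sum.map id g) (Function.injective_id.sumMap g.injective)).of_eq rfl ?_
  have h1 : Pm (Sum.map (id : β → β) g) = fromBlocks 1 0 0 (Pm g) := by
    ext (x | x) (y | y) <;> simp [Pm, one_apply]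
  have h2 : fromBlocks M 0 0 (1 : Matrix γ γ ℂ) - 1 = fromBlocks (M - 1) 0 0 0 := by
    ext (x | x) (y | y) <;> simp [one_apply]
  rw [h1, h2, fromBlocks_transpose, fromBlocks_multiply, fromBlocks_multiply, ← fromBlocks_one,
    fromBlocks_add]
  simp

lemma Wd.part {δ : Type*} [Fintype δ] [DecidableEq δ] {L : ℕ} {M : Matrix β β ℂ}
    (h : Wd L (fromBlocks M 0 0 (1 : Matrix δ δ ℂ))) (U : Finset γ)
    (hU : (Fintype.card β + Fintype.card δ) * #U ≤ Fintype.card β * Fintype.card γ) :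
    Wd L (blockDiagonal fun c : γ => if c ∈ U then M else 1) := by
  have h1 := (h.blockDiag {c // c ∈ U}).submatrix (Equiv.sumProdDistrib _ _ _).symm
  have h2 : (blockDiagonal fun _ : {c // c ∈ U} =>
      fromBlocks M 0 0 (1 : Matrix δ δ ℂ)).submatrix (Equiv.sumProdDistrib _ _ _).symm
      (Equiv.sumProdDistrib _ _ _).symm =
      fromBlocks (blockDiagonal fun _ : {c // c ∈ U} => M) 0 0 1 := by
    ext (⟨x, c⟩ | ⟨x, c⟩) (⟨y, c'⟩ | ⟨y, c'⟩) <;>
      simp [blockDiagonal_apply, one_apply, ite_and]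
    split_ifs <;> rfl
  rw [h2] at h1
  have h3 := h1.pad (δ := β × {c // c ∉ U}) (by
    have h4 : #U ≤ Fintype.card γ := card_le_univ U
    simp only [Fintype.card_prod, Fintype.card_subtype_compl, Fintype.card_coe]
    rw [Nat.mul_sub]
    rw [add_mul] at hU
    omega)
  let e : β × {c // c ∈ U} ⊕ β × {c // c ∉ U} ≃ β × γ :=
    (Equiv.prodSumDistrib _ _ _).symm.trans
      (Equiv.prodCongr (Equiv.refl β) (Equiv.sumCompl (· ∈ U)))
  refine Wd.of_submatrix e e (h3.of_eq rfl ?_)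
  ext (⟨x, c⟩ | ⟨x, c⟩) (⟨y, c'⟩ | ⟨y, c'⟩)
  · have := c.2
    simp [e, blockDiagonal_apply, this]
  · have : c.1 ≠ c'.1 := fun h => c'.2 (h ▸ c.2)
    simp [e, blockDiagonal_apply, this]
  · have : c.1 ≠ c'.1 := fun h => c.2 (h ▸ c'.2)
    simp [e, blockDiagonal_apply, this]
  · have := c.2
    simp [e, blockDiagonal_apply, Subtype.val_inj, one_apply, this, ite_and]
    split_ifs <;> rfl

lemma Wd.chunk {L s : ℕ} {M : Matrix β β ℂ}
    (h : ∀ U : Finset γ, #U ≤ s → Wd L (blockDiagonal fun c : γ => if c ∈ U then M else 1))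
    (G : ℕ) (U : Finset γ) (hU : #U ≤ G * s) :
    Wd (G * L) (blockDiagonal fun c : γ => if c ∈ U then M else 1) := by
  induction G generalizing U with
  | zero =>
    obtain rfl : U = ∅ := by simpa using hU
    refine (Wd.one (α := β × γ)).of_eq (by simp) ?_
    simp only [notMem_empty, if_false]
    exact blockDiagonal_one.symm
  | succ G ih =>
    obtain ⟨V, hV, hV'⟩ := exists_subset_card_eq (s := U) (n := min s #U) (min_le_right _ _)
    have h1 := (ih (U \ V) (by
      rw [card_sdiff_of_subset hV, hV']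
      rw [add_mul] at hU
      omega)).mul (h V (hV' ▸ min_le_left _ _))
    refine h1.of_eq (by ring) ?_
    rw [← blockDiagonal_mul]
    congr 1
    funext c
    by_cases h2 : c ∈ V
    · simp [h2, hV h2]
    · simp [h2]

lemma Sh.via {L L' : ℕ} {a : Matrix α β ℂ} {b : Matrix β α ℂ} {U U' : Matrix β β ℂ}
    (ha : Sh (L + L' + L) (fromBlocks 0 0 b 0)) (hb : Sh L' (fromBlocks 0 a 0 0))
    (hU : Wd L U) (hU' : Wd L U') (h : U' * U = 1) (hab : b * (a * U) = 0) :
    Wd (4 * (L + L' + L)) (fromBlocks (1 + a * U * b) 0 0 (1 : Matrix β β ℂ)) := by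
  have h1 := hb.conj ((Wd.one.le (Nat.zero_le L)).sum hU) ((Wd.one.le (Nat.zero_le L)).sum hU')
    (by simp [fromBlocks_multiply, h])
  have h2 := Sh.comm h1 ha (by simp [fromBlocks_multiply]) (by simp [fromBlocks_multiply])
    (by simp [fromBlocks_multiply, hab])
  refine h2.1.of_eq rfl ?_
  simp only [fromBlocks_multiply]
  rw [← fromBlocks_one, fromBlocks_add]
  simp

section four
variable {R : Type*} [CommRing R] [Fintype R] [DecidableEq R]

/-- The Fourier matrix of an additive character. -/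
def Fa (ψ : AddChar R ℂ) : Matrix R R ℂ := of fun x y => ψ (x * y)

/-- The conjugate Fourier matrix of an additive character. -/
def Fb (ψ : AddChar R ℂ) : Matrix R R ℂ := of fun x y => ψ (-(x * y))

lemma Fb_mul_Fa {ψ : AddChar R ℂ} (hψ : ψ.IsPrimitive) :
    Fb ψ * Fa ψ = (Fintype.card R : ℂ) • 1 := by
  ext x y
  have : ∀ z, ψ (-(x * z)) * ψ (z * y) = ψ (z * (y - x)) := fun z => by
    rw [← AddChar.map_add_eq_mul]; congr 1; ring
  simp only [Fa, Fb, mul_apply, of_apply, this, AddChar.sum_mulShift _ hψ, sub_eq_zero,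
    Matrix.smul_apply, one_apply, eq_comm (a := x)]
  split_ifs <;> simp

lemma Fa_mul_Fb {ψ : AddChar R ℂ} (hψ : ψ.IsPrimitive) :
    Fa ψ * Fb ψ = (Fintype.card R : ℂ) • 1 := by
  ext x y
  have : ∀ z, ψ (x * z) * ψ (-(z * y)) = ψ (z * (x - y)) := fun z => by
    rw [← AddChar.map_add_eq_mul]; congr 1; ring
  simp only [Fa, Fb, mul_apply, of_apply, this, AddChar.sum_mulShift _ hψ, sub_eq_zero,
    Matrix.smul_apply, one_apply]
  split_ifs <;> simp

lemma circ_eq {ψ : AddChar R ℂ} (hψ : ψ.IsPrimitive) (κ : R → ℂ) :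
    Fa ψ * diagonal (fun y => (Fintype.card R : ℂ)⁻¹ * ∑ u, κ u * ψ (-(u * y))) * Fb ψ =
      of fun x x' => κ (x - x') := by
  ext x x'
  have hc : (Fintype.card R : ℂ) ≠ 0 := Nat.cast_ne_zero.2 Fintype.card_ne_zero
  have : ∀ z u, ψ (x * z) * ((Fintype.card R : ℂ)⁻¹ * (κ u * ψ (-(u * z)))) * ψ (-(z * x')) =
      (Fintype.card R : ℂ)⁻¹ * κ u * ψ (z * (x - x' - u)) := fun z u => by
    rw [show z * (x - x' - u) = x * z + -(u * z) + -(z * x') by ring, AddChar.map_add_eq_mul,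
      AddChar.map_add_eq_mul]
    ring
  rw [mul_apply]
  simp only [mul_diagonal, Fa, Fb, of_apply, mul_sum, sum_mul, this]
  rw [sum_comm]
  simp only [← mul_sum, AddChar.sum_mulShift _ hψ, sub_eq_zero]
  simp
  field_simp

lemma Wd.Fb {L : ℕ} {ψ : AddChar R ℂ} (h : Wd L (Fa ψ)) : Wd L (Fb ψ) :=
  Wd.of_submatrix (Equiv.neg R) (Equiv.refl R) (h.of_eq rfl (by ext x y; simp [Fa, H0324.Fb]))

lemma exists_circ {L : ℕ} {ψ : AddChar R ℂ} (hψ : ψ.IsPrimitive) (h : Wd L (Fa ψ)) (κ : R → ℂ) :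
    ∃ U U' : Matrix R R ℂ, Wd (L + L) U ∧ Wd (L + L) U' ∧ U' * U = 1 ∧
      ∀ x x', x ≠ x' → U x x' = κ (x - x') := by
  have hc : (Fintype.card R : ℂ) ≠ 0 := Nat.cast_ne_zero.2 Fintype.card_ne_zero
  set l : R → ℂ := fun y => (Fintype.card R : ℂ)⁻¹ * ∑ u, κ u * ψ (-(u * y)) with hl
  obtain ⟨t, ht⟩ := Infinite.exists_notMem_finset (univ.image fun y => -l y)
  have h0 : ∀ y, l y + t ≠ 0 := fun y hy => ht (mem_image.2 ⟨y, mem_univ _, by
    linear_combination -hy⟩)
  refine ⟨Fa ψ * diagonal (fun y => l y + t) * Fb ψ, Fa ψ * diagonal (fun y =>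
    (Fintype.card R : ℂ)⁻¹ * (Fintype.card R : ℂ)⁻¹ * (l y + t)⁻¹) * Fb ψ,
    (h.mul (Wd.diag _)).mul h.Fb, (h.mul (Wd.diag _)).mul h.Fb, ?_, fun x x' hx => ?_⟩
  · have h1 : ∀ d d' : R → ℂ, Fa ψ * diagonal d * Fb ψ * (Fa ψ * diagonal d' * Fb ψ) =
        Fa ψ * (diagonal d * (Fb ψ * Fa ψ) * diagonal d') * Fb ψ := by
      intro d d'; simp only [Matrix.mul_assoc]
    have h2 : diagonal (fun y => (Fintype.card R : ℂ)⁻¹ * (Fintype.card R : ℂ)⁻¹ * (l y + t)⁻¹) *
        ((Fintype.card R : ℂ) • 1) * diagonal (fun y => l y + t) =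
        (Fintype.card R : ℂ)⁻¹ • (1 : Matrix R R ℂ) := by
      rw [Matrix.mul_smul, Matrix.mul_one, Matrix.smul_mul, diagonal_mul_diagonal, ← diagonal_smul,
        ← diagonal_one, ← diagonal_smul]
      congr 1
      funext y
      have := h0 y
      simp
      field_simp
    rw [h1, Fb_mul_Fa hψ, h2, Matrix.mul_smul, Matrix.mul_one, Matrix.smul_mul, Fa_mul_Fb hψ,
      smul_smul, inv_mul_cancel₀ hc, one_smul]
  · have h1 : diagonal (fun y => l y + t) = diagonal l + t • (1 : Matrix R R ℂ) := by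
      rw [← diagonal_one, ← diagonal_smul, diagonal_add]
      simp
    rw [h1, Matrix.mul_add, Matrix.add_mul, circ_eq hψ, Matrix.mul_smul, Matrix.mul_one,
      Matrix.smul_mul, Fa_mul_Fb hψ]
    simp [hx]

end four

lemma wd_toep {m n L : ℕ} [NeZero m] [NeZero n] (hmn : 2 * m ≤ n) {χ : AddChar (ZMod n) ℂ}
    (hχ : χ.IsPrimitive) (h : Wd L (Fa χ)) {f g : ZMod m → α} (hf : Function.Injective f)
    (hg : Function.Injective g) (hfg : ∀ b c, f b ≠ g c) (d d' κ : ZMod m → ℂ) :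
    Wd (16 * L + 24) (fromBlocks (1 + Pm g * (diagonal d * (of fun x x' => κ (x - x')) *
      diagonal d') * (Pm f)ᵀ) 0 0 (1 : Matrix (ZMod n) (ZMod n) ℂ)) := by
  obtain ⟨U, U', hU, hU', h1, h2⟩ := exists_circ hχ h (fun u => κ (u.val : ZMod m))
  let i1 : ZMod m → ZMod n := fun b => ((b.val + m : ℕ) : ZMod n)
  let i2 : ZMod m → ZMod n := fun b => ((b.val : ℕ) : ZMod n)
  have v1 : ∀ b, (i1 b).val = b.val + m := fun b =>
    ZMod.val_cast_of_lt (by have := ZMod.val_lt b; omega)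
  have v2 : ∀ b, (i2 b).val = b.val := fun b =>
    ZMod.val_cast_of_lt (by have := ZMod.val_lt b; omega)
  have j1 : Function.Injective i1 := fun b c hb => ZMod.val_injective _ (by
    have := congrArg ZMod.val hb
    rw [v1, v1] at this
    omega)
  have j2 : Function.Injective i2 := fun b c hb => ZMod.val_injective _ (by
    have := congrArg ZMod.val hb
    rwa [v2, v2] at this)
  have ha : Sh 6 (fromBlocks (0 : Matrix α α ℂ) (Pm g * diagonal d * (Pm i1)ᵀ) 0 0) := by
    convert Sh.matching (f := fun b => (Sum.inl (g b) : α ⊕ ZMod n)) (g := fun b => Sum.inr (i1 b))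
      (Sum.inl_injective.comp hg) (Sum.inr_injective.comp j1) (fun _ _ => Sum.inl_ne_inr) d
    ext (x | x) (y | y) <;> simp [Pm, mul_apply]
  have hb : Sh 6 (fromBlocks (0 : Matrix α α ℂ) 0 (Pm i2 * diagonal d' * (Pm f)ᵀ) 0) := by
    convert Sh.matching (g := fun b => (Sum.inl (f b) : α ⊕ ZMod n)) (f := fun b => Sum.inr (i2 b))
      (Sum.inr_injective.comp j2) (Sum.inl_injective.comp hf) (fun _ _ => Sum.inr_ne_inl) d'
    ext (x | x) (y | y) <;> simp [Pm, mul_apply]
  refine (Sh.via (hb.le (by omega)) ha hU hU' h1 ?_).of_eq (by ring) ?_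
  · have : (Pm f)ᵀ * Pm g = 0 := Pm_t_Pm_ne hfg
    simp only [Matrix.mul_assoc]
    rw [← Matrix.mul_assoc (Pm f)ᵀ, this]
    simp
  · have : (Pm i1)ᵀ * U * Pm i2 = of fun x x' => κ (x - x') := by
      rw [Pm_t_mul, mul_Pm]
      ext x x'
      have h3 : x'.val < m := ZMod.val_lt x'
      have h4 : i1 x ≠ i2 x' := fun h => by
        have := congrArg ZMod.val h
        rw [v1, v2] at this
        omega
      simp only [submatrix_apply, id, of_apply]
      rw [h2 _ _ h4, ZMod.val_sub (by rw [v1, v2]; omega), v1, v2, Nat.cast_sub (by omega)]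
      simp
    rw [← this]
    simp only [Matrix.mul_assoc]

end Crest.Agent.H0324
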