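import Crest.Agent.H0324.Frame

set_option autoImplicit false

namespace Crest.Agent.H0324

open Finset Matrix Kronecker

section kron
variable {ι ι' : Type*}

lemma Dec.two_smul {B : Matrix ι ι ℤ} {c : ℕ} (h : Dec B c) (k : ℤ) : Dec ((2 * k) • B) 0 := by
  induction h with
  | zero => simpa using Dec.zero
  | rank z _ ih => exact (ih.two k z).of_eq (by module) rfl
  | two k' z _ ih => exact (ih.two (2 * k * k') z).of_eq (by module) rfl

lemma kron_rank (z : ι → ℤ) (w : ι' → ℤ) : vecMulVec z z ⊗ₖ vecMulVec w w =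
    vecMulVec (fun p : ι × ι' => z p.1 * w p.2) (fun p => z p.1 * w p.2) := by
  ext p q
  simp only [kroneckerMap_apply, vecMulVec_apply]
  ring

lemma Dec.kron {A : Matrix ι ι ℤ} {B : Matrix ι' ι' ℤ} {c c' : ℕ} (hA : Dec A c)
    (hB : Dec B c') : Dec (A ⊗ₖ B) (c * c') := by
  have key : ∀ z : ι → ℤ, Dec (vecMulVec z z ⊗ₖ B) c' := fun z =>
    hB.map (kroneckerBilinear (R := ℤ) (vecMulVec z z)) fun w => ⟨_, kron_rank z w⟩
  induction hA with
  | zero => simpa using Dec.zero
  | rank z _ ih => exact (ih.add (key z)).of_eq (add_kronecker _ _ _).symm (by ring)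
  | two k z _ ih =>
    exact (ih.add ((key z).two_smul k)).of_eq (by rw [add_kronecker, smul_kronecker]) rfl

end kron

section triple
variable {α : Type*} [DecidableEq α]

/-- The rank-one matrix of the indicator vector of a set. -/
def pm (S : Finset α) : Matrix α α ℤ :=
  vecMulVec (fun i => if i ∈ S then 1 else 0) (fun i => if i ∈ S then 1 else 0)

/-- The diagonal projector of a set. -/
def dg (S : Finset α) : Matrix α α ℤ := ∑ i ∈ S, pm {i}

lemma dec_pm (S : Finset α) : Dec (pm S) 1 := Dec.one_rank _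

lemma dec_dg (S : Finset α) : Dec (dg S) #S := by
  simpa [dg] using Dec.sum S (fun i _ => dec_pm {i})

lemma dg_apply (S : Finset α) (i j : α) : dg S i j = if i = j ∧ i ∈ S then 1 else 0 := by
  simp only [dg, pm, Matrix.sum_apply, vecMulVec_apply, mem_singleton, mul_ite, mul_one, mul_zero,
    sum_ite_eq]
  by_cases h : i = j
  · subst h; simp
  · simp [h]

lemma dg_univ [Fintype α] : dg (univ : Finset α) = 1 := by
  ext i j
  simp [dg_apply, one_apply]

lemma dg_compl [Fintype α] (Q : Finset α) : dg Q + dg Qᶜ = 1 := by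
  rw [← dg_univ, dg, dg, dg, sum_add_sum_compl]

lemma four_set {Q : Finset α} (hQ : #Q = 4) :
    ∑ q ∈ Q, pm (Q.erase q) = dg Q + (2 : ℤ) • pm Q := by
  ext i j
  simp only [Matrix.sum_apply, Matrix.add_apply, Matrix.smul_apply, dg_apply, pm, vecMulVec_apply,
    mem_erase, smul_eq_mul]
  by_cases hi : i ∈ Q
  · by_cases hj : j ∈ Q
    · simp only [hi, hj, and_true, if_true, mul_one, ite_zero_mul_ite_zero, sum_boole]
      by_cases h : i = j
      · subst h
        have : {q ∈ Q | i ≠ q ∧ i ≠ q} = Q.erase i := by ext q; simp [and_comm, eq_comm]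
        rw [this, card_erase_of_mem hi, hQ]
        simp
      · have : {q ∈ Q | i ≠ q ∧ j ≠ q} = (Q.erase i).erase j := by
          ext q; simp only [mem_filter, mem_erase, ne_eq, eq_comm]; tauto
        rw [this, card_erase_of_mem (mem_erase.2 ⟨Ne.symm h, hj⟩), card_erase_of_mem hi, hQ]
        simp [h]
    · have : ¬ i = j := fun h => hj (h ▸ hi)
      simp [hj, this]
  · simp [hi]

lemma dec_four {Q R : Finset α} (hQ : #Q = 4) (hR : R ⊆ Q) :
    Dec (dg Q - ∑ q ∈ R, pm (Q.erase q)) (4 - #R) := by
  have h1 := (Dec.sum (Q \ R) (fun q _ => dec_pm (Q.erase q))).two (-1)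
    (fun i => if i ∈ Q then 1 else 0)
  refine h1.of_eq ?_ (by rw [card_sdiff_of_subset hR, hQ, mul_one])
  rw [sum_sdiff_eq_sub hR, four_set hQ]
  simp only [pm]
  module

lemma dec_three {S : Finset α} {d : α} (hS : #S = 3) (hd : d ∉ S) :
    Dec (dg (insert d S) - pm S) 3 := by
  have := dec_four (Q := insert d S) (R := {d}) (by rw [card_insert_of_notMem hd, hS]) (by simp)
  simpa [erase_insert hd] using this

variable [Fintype α]

lemma dec_one : Dec (1 : Matrix α α ℤ) (Fintype.card α) := by
  simpa [dg_univ] using dec_dg (univ : Finset α)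

lemma dec_compl_one {S : Finset α} (hS : #S = 3) (h : 8 ≤ Fintype.card α) :
    Dec (1 - pm S) (Fintype.card α - 1) := by
  obtain ⟨d, -, hd⟩ := exists_mem_notMem_of_card_lt_card (s := S) (t := univ)
    (by rw [card_univ]; omega)
  refine ((dec_three hS hd).add (dec_dg (insert d S)ᶜ)).of_eq ?_ ?_
  · rw [← dg_compl (insert d S)]; abel
  · rw [card_compl, card_insert_of_notMem hd]; omega

lemma dec_compl_two {S T : Finset α} (hS : #S = 3) (hT : #T = 3) (hne : S ≠ T)
    (he : Even #(S ∩ T)) (h : 8 ≤ Fintype.card α) :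
    Dec (1 - pm S - pm T) (Fintype.card α - 2) := by
  have hu := card_union_add_card_inter S T
  have h3 : #(S ∩ T) < 3 := by
    by_contra hc
    have h1 : S ∩ T = S := eq_of_subset_of_card_le inter_subset_left (by omega)
    have h2 : S ∩ T = T := eq_of_subset_of_card_le inter_subset_right (by omega)
    exact hne (h1.symm.trans h2)
  obtain ⟨k, hk⟩ := he
  by_cases h0 : #(S ∩ T) = 0
  · obtain ⟨d, -, hd⟩ := exists_mem_notMem_of_card_lt_card (s := S ∪ T) (t := univ)
      (by rw [card_univ]; omega)
    obtain ⟨d', -, hd'⟩ := exists_mem_notMem_of_card_lt_card (s := insert d (S ∪ T)) (t := univ)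
      (by rw [card_univ, card_insert_of_notMem hd]; omega)
    simp only [mem_insert, mem_union, not_or] at hd hd'
    have hdis : Disjoint (insert d S) (insert d' T) := by
      rw [card_eq_zero, ← disjoint_iff_inter_eq_empty] at h0
      simp [hd, hd', h0]
    refine (((dec_three hS hd.1).add (dec_three hT hd'.2.2)).add
      (dec_dg (insert d S ∪ insert d' T)ᶜ)).of_eq ?_ ?_
    · rw [← dg_compl (insert d S ∪ insert d' T), dg, dg, dg, dg, sum_union hdis]; abel
    · rw [card_compl, card_union_of_disjoint hdis, card_insert_of_notMem hd.1,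
        card_insert_of_notMem hd'.2.2]
      omega
  · have hQ : #(S ∪ T) = 4 := by omega
    obtain ⟨a, ha, haS⟩ := exists_mem_notMem_of_card_lt_card (s := S) (t := S ∪ T) (by omega)
    obtain ⟨b, hb, hbT⟩ := exists_mem_notMem_of_card_lt_card (s := T) (t := S ∪ T) (by omega)
    have hab : a ≠ b := by
      rintro rfl
      simp [haS, hbT] at ha
    have e1 : (S ∪ T).erase a = S := by
      symm
      refine eq_of_subset_of_card_le (fun x hx => mem_erase.2 ⟨?_, mem_union_left _ hx⟩) ?_
      · rintro rfl; exact haS hx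
      · rw [card_erase_of_mem ha]; omega
    have e2 : (S ∪ T).erase b = T := by
      symm
      refine eq_of_subset_of_card_le (fun x hx => mem_erase.2 ⟨?_, mem_union_right _ hx⟩) ?_
      · rintro rfl; exact hbT hx
      · rw [card_erase_of_mem hb]; omega
    have h4 := dec_four (R := {a, b}) hQ (by
      intro x hx
      rcases mem_insert.1 hx with rfl | hx
      · exact ha
      · rw [mem_singleton.1 hx]; exact hb)
    rw [sum_pair hab, e1, e2, card_pair hab] at h4
    refine (h4.add (dec_dg (S ∪ T)ᶜ)).of_eq ?_ ?_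
    · rw [← dg_compl (S ∪ T)]; abel
    · rw [card_compl, hQ]; omega

/-- Triples. -/
abbrev Tr (α : Type*) : Type _ := {S : Finset α // #S = 3}

/-- Pairs of distinct triples with even intersection. -/
abbrev Nb (α : Type*) [DecidableEq α] : Type _ :=
  {p : Tr α × Tr α // p.1 ≠ p.2 ∧ Even #(p.1.1 ∩ p.2.1)}

/-- Central coefficients. -/
noncomputable def cG (o : Option α) (T : Tr α) : ℂ := o.elim 1 fun i => if i ∈ T.1 then 1 else 0

/-- Central coefficients. -/
noncomputable def cR (S : Tr α) (o : Option α) : ℂ :=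
  o.elim (-1 / 2) fun i => if i ∈ S.1 then 1 / 2 else 0

/-- Side coefficients. -/
noncomputable def cJ (S : Tr α) (n : Nb α) : ℂ :=
  if n.1.1 = S then -((#(n.1.1.1 ∩ n.1.2.1) - 1 : ℂ) / 2) else 0

omit [Fintype α] in
lemma cJ_ne {S : Tr α} {n : Nb α} (h : cJ S n ≠ 0) : n.1.1 = S := by
  by_contra hc
  exact h (if_neg hc)

lemma coef_id (S T : Tr α) :
    ∑ o, cR S o * cG o T + ∑ n : Nb α, cJ S n * (if n.1.2 = T then 1 else 0) =
      if S = T then 1 else 0 := by
  have h1 : ∑ o, cR S o * cG o T = (#(S.1 ∩ T.1) - 1 : ℂ) / 2 := by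
    simp only [Fintype.sum_option, cR, cG, Option.elim, ite_zero_mul_ite_zero, ← mem_inter]
    rw [← sum_filter, filter_mem_eq_inter, univ_inter, sum_const, nsmul_eq_mul]
    ring
  rw [h1]
  by_cases hn : S ≠ T ∧ Even #(S.1 ∩ T.1)
  · rw [sum_eq_single (⟨(S, T), hn⟩ : Nb α), if_neg hn.1]
    · simp [cJ]
    · intro n _ hn'
      by_cases h2 : n.1.2 = T
      · have : n.1.1 ≠ S := fun h => hn' (Subtype.ext (Prod.ext h h2))
        simp [cJ, this]
      · simp [h2]
    · simp
  · rw [sum_eq_zero, add_zero]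
    · split_ifs with h
      · subst h
        rw [inter_self, S.2]
        norm_num
      · have h2 : ¬ Even #(S.1 ∩ T.1) := fun he => hn ⟨h, he⟩
        have h3 : #(S.1 ∩ T.1) < 3 := by
          by_contra hc
          have h1 : S.1 ∩ T.1 = S.1 :=
            eq_of_subset_of_card_le inter_subset_left (by rw [S.2]; omega)
          have h2 : S.1 ∩ T.1 = T.1 :=
            eq_of_subset_of_card_le inter_subset_right (by rw [T.2]; omega)
          exact h (Subtype.ext (h1.symm.trans h2))
        have : #(S.1 ∩ T.1) = 1 := by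
          rw [Nat.not_even_iff] at h2
          omega
        simp [this]
    · intro n _
      by_cases h2 : n.1.2 = T
      · have : n.1.1 ≠ S := fun h => hn (h ▸ h2 ▸ n.2)
        simp [cJ, this]
      · simp [h2]

lemma coef_id' {M : Type*} [AddCommGroup M] [Module ℂ M] (x : Tr α → M) (S : Tr α) :
    ∑ o, cR S o • ∑ T, cG o T • x T + ∑ n : Nb α, cJ S n • x n.1.2 = x S := by
  have h1 : ∀ n : Nb α, x n.1.2 = ∑ T, (if n.1.2 = T then (1 : ℂ) else 0) • x T := by
    intro n; simp
  simp only [h1, smul_sum, smul_smul]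
  rw [sum_comm, sum_comm (s := (univ : Finset (Nb α))), ← sum_add_distrib]
  simp only [← sum_smul, ← add_smul, coef_id]
  simp

end triple

end Crest.Agent.H0324
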